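import Vale.Agent.P040.H908.TriVal
import Vale.Agent.P040.H84.ValDef
import Vale.Agent.P040.H242.Dgs
import Vale.Agent.P040.H610.Exist

/-!
# The triangle rule in the form of `CoreHyp.tri` (helper908)
-/

set_option autoImplicit false
set_option linter.unusedSimpArgs false

namespace Vale.Agent.P040.H908

open Pst P040H251 H84

variable {h : ℕ} (P : LData h)

theorem rk_leaf {x y : ℝ} {i : Fin (2 * h)} (h1 : x < P.pos i) (h2 : P.pos i < y)
    (h3 : ∀ j, j ≠ i → P.pos j ∉ Set.Icc x y) : P.rk y = P.rk x + 1 := by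
  have e1 : P.rk y = P.rk (P.pos i) + 1 := by
    refine P.rk_succ i h2 ?_
    intro j hj
    by_cases hji : j = i
    · subst hji; exact lt_irrefl _ hj.1
    · exact h3 j hji ⟨by linarith [hj.1], hj.2⟩
  have e2 : P.rk x = P.rk (P.pos i) := by
    refine P.rk_congr h1.le ?_
    intro j hj
    by_cases hji : j = i
    · subst hji; exact lt_irrefl _ hj.2
    · exact h3 j hji ⟨hj.1, by linarith [hj.2]⟩
  omega

theorem cnt_add (y : ℝ) : P.cnt true (P.rk y) + P.cnt false (P.rk y) = P.rk y := by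
  unfold LData.cnt
  have e : ∀ b, (Finset.univ.filter fun i => P.pg i = b ∧ P.rk (P.pos i) < P.rk y) =
      (Finset.univ.filter fun i => P.pos i < y).filter fun i => P.pg i = b := by
    intro b
    ext i
    simp only [Finset.mem_filter, Finset.mem_univ, true_and, P.rk_lt_iff]
    tauto
  rw [e, e]
  have h1 := Finset.card_filter_add_card_filter_not
    (s := Finset.univ.filter fun i => P.pos i < y) (fun i => P.pg i = true)
  have h2 : ((Finset.univ.filter fun i => P.pos i < y).filter fun i => ¬ P.pg i = true) =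
      (Finset.univ.filter fun i => P.pos i < y).filter fun i => P.pg i = false := by
    apply Finset.filter_congr
    intro i _
    simp
  rw [h2] at h1
  exact h1

theorem leafD : LeafD P.pos P.D0 where
  const := by
    intro x y hxy hn
    exact P.rk_congr hxy fun i hi => hn i ⟨hi.1, hi.2.le⟩
  mass := by
    intro i x y h1 h2 h3
    have e := rk_leaf P h1 h2 h3
    have e1 := cnt_add P x
    have e2 := cnt_add P y
    show ((P.cnt true (P.rk y) : ℝ) - P.cnt true (P.rk x)) +
      ((P.cnt false (P.rk y) : ℝ) - P.cnt false (P.rk x)) = 1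
    have e3 : (P.cnt true (P.rk y) : ℝ) + P.cnt false (P.rk y) = P.cnt true (P.rk x) +
        P.cnt false (P.rk x) + 1 := by
      have : P.cnt true (P.rk y) + P.cnt false (P.rk y) = P.cnt true (P.rk x) +
        P.cnt false (P.rk x) + 1 := by omega
      exact_mod_cast this
    linarith

/-- every arm of a halving sub-star has a value at its leaf -/
def Ex : Prop :=
  ∀ (S : List (Fin (2 * h) × List ℝ)), IsStar P.pos S → ∀ ε : ℝ, 0 < ε → Sepd ε (pts S) →
    ∀ (T1 T2 : List (Fin (2 * h) × List ℝ)) (q : Fin (2 * h) × List ℝ),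
      (T1 ++ q :: T2).Sublist S → (T1 ++ q :: T2).length = h → ∀ E : ℝ → ℝ,
      Crv P.D0 false (dbl ε (T1 ++ q :: T2)) E →
      P.Val q.1 ((wz P.G0 q.1 q.2)⁻¹ * pr (sl P.G0) (frm P.G0 (T2 ++ T1)) * wz P.G0 q.1 q.2)
        (selApi.val false (dbl ε (T1 ++ q :: T2)) E - E (P.pos q.1 + ε))

variable {P}

theorem tri_of_ex (hex : Ex P) {a b c : Fin (2 * h) × FreeGroup ℕ}
    {A B L : List (Fin (2 * h) × FreeGroup ℕ)}
    (hD : Dgs P.pos P.G0 (a :: (A ++ b :: (B ++ c :: L)))) (hlen : A.length + B.length + 2 = h) :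
    ∃ c1 c2 a2 a3 b3 b1 : ℝ,
      P.Val c.1 (c.2⁻¹ * (pr (sl P.G0) A * gg (sl P.G0) b * pr (sl P.G0) B) * c.2) c1 ∧
      P.Val c.1 (c.2⁻¹ * (gg (sl P.G0) a * pr (sl P.G0) A * pr (sl P.G0) B) * c.2) c2 ∧
      P.Val a.1 (a.2⁻¹ * (pr (sl P.G0) A * pr (sl P.G0) B * gg (sl P.G0) c) * a.2) a2 ∧
      P.Val a.1 (a.2⁻¹ * (pr (sl P.G0) A * gg (sl P.G0) b * pr (sl P.G0) B) * a.2) a3 ∧
      P.Val b.1 (b.2⁻¹ * (pr (sl P.G0) B * gg (sl P.G0) a * pr (sl P.G0) A) * b.2) b3 ∧
      P.Val b.1 (b.2⁻¹ * (pr (sl P.G0) B * gg (sl P.G0) c * pr (sl P.G0) A) * b.2) b1 ∧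
      |c1 - c2| + |a2 - a3| + |b3 - b1| ≤ 1 := by
  obtain ⟨S, hS, hL, -⟩ := hD
  unfold frm at hL
  obtain ⟨a', S1, e1, rfl, hL1⟩ := List.map_eq_cons_iff.1 hL
  obtain ⟨A', S2, e2, rfl, hL2⟩ := List.map_eq_append_iff.1 hL1
  obtain ⟨b', S3, e3, rfl, hL3⟩ := List.map_eq_cons_iff.1 hL2
  obtain ⟨B', S4, e4, rfl, hL4⟩ := List.map_eq_append_iff.1 hL3
  obtain ⟨c', S5, e5, rfl, hL5⟩ := List.map_eq_cons_iff.1 hL4
  subst e5 e4 e3 e2 e1
  simp only [List.length_map] at hlen
  obtain ⟨ε, h0, hε⟩ := exists_sepd (pts (a' :: (A' ++ b' :: (B' ++ c' :: S5))))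
  set S := a' :: (A' ++ b' :: (B' ++ c' :: S5)) with hSe
  have sub0 : (a' :: (A' ++ b' :: (B' ++ [c']))).Sublist S := by
    have : S = (a' :: (A' ++ b' :: (B' ++ [c']))) ++ S5 := by rw [hSe]; simp
    rw [this]
    exact List.sublist_append_left _ _
  have hsub := (leafD P).subS hS sub0 hε h0
  have hlen2 : (((a' :: (A' ++ b' :: (B' ++ [c']))).length : ℕ) : ℝ) = 2 * P.D0.M + 1 := by
    have h1 : (a' :: (A' ++ b' :: (B' ++ [c']))).length = h + 1 := by
      simp only [List.length_cons, List.length_append, List.length_nil]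
      omega
    have h2 : P.D0.M = (h : ℝ) / 2 := rfl
    rw [h1, h2]
    push_cast
    ring
  rw [hlen2] at hsub
  have haS : a' ∈ S := by rw [hSe]; simp
  have hbS : b' ∈ S := by rw [hSe]; simp
  have hcS : c' ∈ S := by rw [hSe]; simp
  have tri := SubS.tri (selApi (W := ℝ)) (D := P.D0) (ε := ε) (S0 := []) (M := A') (M' := B')
    (S1 := []) (a := a') (b := b') (c := c') hsub ((leafD P).al_eq hS hε h0 haS)
    ((leafD P).al_eq hS hε h0 hbS) ((leafD P).al_eq hS hε h0 hcS)
  obtain ⟨Ea, Eb, Ec, ha, hb, hc, t1, t2, t3, t4⟩ := tri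
  have la : lst a'.2 = P.pos a'.1 := by obtain ⟨l, hl⟩ := hS.ends a' haS; exact lst_of hl
  have lb : lst b'.2 = P.pos b'.1 := by obtain ⟨l, hl⟩ := hS.ends b' hbS; exact lst_of hl
  have lc : lst c'.2 = P.pos c'.1 := by obtain ⟨l, hl⟩ := hS.ends c' hcS; exact lst_of hl
  simp only [List.nil_append, List.append_nil, la, lb, lc] at ha hb hc t1 t2 t3 t4
  have sa : (A' ++ b' :: (B' ++ [c'])).Sublist S := (List.sublist_cons_self _ _).trans sub0
  have sb : (a' :: (A' ++ (B' ++ [c']))).Sublist S := by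
    refine List.Sublist.trans ?_ sub0
    refine List.Sublist.cons_cons a' ?_
    exact List.Sublist.append_left (List.sublist_cons_self _ _) _
  have sc : (a' :: (A' ++ b' :: B')).Sublist S := by
    refine List.Sublist.trans ?_ sub0
    refine List.Sublist.cons_cons a' ?_
    refine List.Sublist.append_left ?_ _
    refine List.Sublist.cons_cons b' ?_
    exact List.sublist_append_left _ _
  have prc : ∀ q : Fin (2 * h) × List ℝ, ∀ M, pr (sl P.G0) (frm P.G0 (q :: M)) =
      gg (sl P.G0) (q.1, wz P.G0 q.1 q.2) * pr (sl P.G0) (frm P.G0 M) := by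
    intro q M; simp [frm]
  have pra : ∀ M N, pr (sl P.G0) (frm P.G0 (M ++ N)) =
      pr (sl P.G0) (frm P.G0 M) * pr (sl P.G0) (frm P.G0 N) := by
    intro M N; simp [frm]
  have prn : pr (sl P.G0) (frm P.G0 []) = 1 := by simp [frm]
  have l1 : A'.length + (B'.length + 1) = A'.length + B'.length + 1 := by omega
  refine ⟨selApi.val false (dbl ε (A' ++ b' :: (B' ++ [c']))) Ea - Ea (P.pos c'.1 + ε),
    selApi.val false (dbl ε (a' :: (A' ++ (B' ++ [c'])))) Eb - Eb (P.pos c'.1 + ε),
    selApi.val false (dbl ε (a' :: (A' ++ (B' ++ [c'])))) Eb - Eb (P.pos a'.1 + ε),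
    selApi.val false (dbl ε (a' :: (A' ++ b' :: B'))) Ec - Ec (P.pos a'.1 + ε),
    selApi.val false (dbl ε (a' :: (A' ++ b' :: B'))) Ec - Ec (P.pos b'.1 + ε),
    selApi.val false (dbl ε (A' ++ b' :: (B' ++ [c']))) Ea - Ea (P.pos b'.1 + ε),
    ?_, ?_, ?_, ?_, ?_, ?_, ?_⟩
  rotate_left 6
  · exact le_of_eq (by
      rw [abs_of_nonneg t1, abs_of_nonneg t2, abs_of_nonneg t3]
      exact t4)
  · -- `c1`
    have := hex S hS ε h0 hε (A' ++ b' :: B') [] c' (by simpa using sa) (by simp; omega) Ea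
      (by simpa using ha)
    simp only [List.append_assoc, List.cons_append, List.nil_append, pra, prc, prn] at this
    simpa [frm, mul_assoc] using this
  · -- `c2`
    have := hex S hS ε h0 hε (a' :: (A' ++ B')) [] c' (by simpa using sb) (by simp; omega) Eb
      (by simpa using hb)
    simp only [List.append_assoc, List.cons_append, List.nil_append, pra, prc, prn] at this
    simpa [frm, mul_assoc] using this
  · -- `a2`
    have := hex S hS ε h0 hε [] (A' ++ (B' ++ [c'])) a' (by simpa using sb) (by simp; omega) Eb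
      (by simpa using hb)
    simp only [List.append_assoc, List.cons_append, List.nil_append, List.append_nil, pra, prc,
      prn] at this
    simpa [frm, mul_assoc] using this
  · -- `a3`
    have := hex S hS ε h0 hε [] (A' ++ b' :: B') a' (by simpa using sc) (by simp; omega) Ec
      (by simpa using hc)
    simp only [List.append_assoc, List.cons_append, List.nil_append, List.append_nil, pra, prc,
      prn] at this
    simpa [frm, mul_assoc] using this
  · -- `b3`
    have := hex S hS ε h0 hε (a' :: A') B' b' (by simpa using sc) (by simp; omega) Ec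
      (by simpa using hc)
    simp only [List.append_assoc, List.cons_append, List.nil_append, List.append_nil, pra, prc,
      prn] at this
    simpa [frm, mul_assoc] using this
  · -- `b1`
    have := hex S hS ε h0 hε A' (B' ++ [c']) b' (by simpa using sa) (by simp; omega) Ea
      (by simpa using ha)
    simp only [List.append_assoc, List.cons_append, List.nil_append, List.append_nil, pra, prc,
      prn] at this
    simpa [frm, mul_assoc] using this

theorem ex_holds (P : LData h) : Ex P := by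
  intro S hS ε h0 hε T1 T2 q hsub hlen E hE
  have h1 := ToCrv.exists_val P hS hε h0 (A := T1) (B := T2) (z := q.1) (p := q.2)
    (fun r hr => hsub.subset hr) hE
  have h2 : ∀ M : List (Fin (2 * h) × List ℝ), pr (sl P.G0) (frm P.G0 M) =
      (M.map fun q => lp P.G0 q.1 q.2).prod := by
    intro M
    induction M with
    | nil => simp [frm]
    | cons r M ih =>
      have : pr (sl P.G0) (frm P.G0 (r :: M)) =
          gg (sl P.G0) (r.1, wz P.G0 r.1 r.2) * pr (sl P.G0) (frm P.G0 M) := by simp [frm]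
      rw [this, ih, gg_wz, List.map_cons, List.prod_cons]
  rw [h2]
  exact h1

/-- **The field `tri` of `CoreHyp`.** -/
theorem tri_core (P : LData h) {a b c : Fin (2 * h) × FreeGroup ℕ}
    {A B L : List (Fin (2 * h) × FreeGroup ℕ)}
    (hD : Dgs P.pos P.G0 (a :: (A ++ b :: (B ++ c :: L)))) (hlen : A.length + B.length + 2 = h) :
    ∃ c1 c2 a2 a3 b3 b1 : ℝ,
      P.Val c.1 (c.2⁻¹ * (pr (sl P.G0) A * gg (sl P.G0) b * pr (sl P.G0) B) * c.2) c1 ∧
      P.Val c.1 (c.2⁻¹ * (gg (sl P.G0) a * pr (sl P.G0) A * pr (sl P.G0) B) * c.2) c2 ∧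
      P.Val a.1 (a.2⁻¹ * (pr (sl P.G0) A * pr (sl P.G0) B * gg (sl P.G0) c) * a.2) a2 ∧
      P.Val a.1 (a.2⁻¹ * (pr (sl P.G0) A * gg (sl P.G0) b * pr (sl P.G0) B) * a.2) a3 ∧
      P.Val b.1 (b.2⁻¹ * (pr (sl P.G0) B * gg (sl P.G0) a * pr (sl P.G0) A) * b.2) b3 ∧
      P.Val b.1 (b.2⁻¹ * (pr (sl P.G0) B * gg (sl P.G0) c * pr (sl P.G0) A) * b.2) b1 ∧
      |c1 - c2| + |a2 - a3| + |b3 - b1| ≤ 1 :=
  tri_of_ex (ex_holds P) hD hlen

end Vale.Agent.P040.H908
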