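import Vale.Agent.P040.H908.Arm

/-!
# Closed doubled sub-stars: consistent functions exist iff the curve halves the mass (helper908)
-/

set_option autoImplicit false

namespace Vale.Agent.P040.H908

open Pst

/-- the sum of the signs of the consecutive differences -/
noncomputable def csum : List ℝ → ℝ
  | a :: b :: t => sgn a b + csum (b :: t)
  | _ => 0

@[simp] lemma csum_nil : csum [] = 0 := rfl
@[simp] lemma csum_one (a : ℝ) : csum [a] = 0 := rfl
lemma csum_cons (a b : ℝ) (t : List ℝ) : csum (a :: b :: t) = sgn a b + csum (b :: t) := rfl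

lemma csum_append (l : List ℝ) (b a : ℝ) (t : List ℝ) :
    csum (l ++ b :: a :: t) = csum (l ++ [b]) + sgn b a + csum (a :: t) := by
  induction l with
  | nil => simp [csum_cons]
  | cons c l ih =>
    cases l with
    | nil =>
      simp only [List.cons_append, List.nil_append, csum_cons, csum_one]
      ring
    | cons d l =>
      simp only [List.cons_append] at ih ⊢
      rw [csum_cons, ih, csum_cons]
      ring

lemma csum_sorted {a : ℝ} {l : List ℝ} (h : (a :: l).Pairwise (· < ·)) :
    csum (a :: l) = l.length := by
  induction l generalizing a with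
  | nil => simp
  | cons b t ih =>
    rw [csum_cons, ih (List.Pairwise.of_cons h)]
    have : a < b := List.rel_of_pairwise_cons h (by simp)
    rw [sgn, if_pos this, List.length_cons]
    push_cast
    ring

lemma sgn_self (a : ℝ) : sgn a a = -1 := by simp [sgn]

/-- the sum of the signs around a cyclically increasing list -/
lemma csum_cyc {l₁ l₂ : List ℝ} (h : (l₁ ++ l₂).Pairwise (· < ·)) {f : ℝ} {t : List ℝ}
    (ht : l₂ ++ l₁ = f :: t) : csum (f :: t ++ [f]) = ((f :: t).length : ℝ) - 2 := by
  -- a sorted list
  have key : ∀ (f : ℝ) (t : List ℝ), (f :: t).Pairwise (· < ·) →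
      csum (f :: t ++ [f]) = ((f :: t).length : ℝ) - 2 := by
    intro f t h
    rcases List.eq_nil_or_concat t with rfl | ⟨t', b, rfl⟩
    · simp only [List.cons_append, List.nil_append, csum_cons, csum_one, sgn_self]
      simp; norm_num
    · have h1 := csum_sorted h
      rw [List.concat_eq_append] at h h1 ⊢
      have e : f :: (t' ++ [b]) ++ [f] = (f :: t') ++ b :: f :: [] := by simp
      rw [e, csum_append, csum_one]
      have e2 : f :: t' ++ [b] = f :: (t' ++ [b]) := by simp
      rw [e2, h1]
      have hfb : f < b := List.rel_of_pairwise_cons h (by simp)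
      rw [sgn, if_neg (not_lt.2 hfb.le)]
      simp only [List.length_cons, List.length_append, List.length_nil]
      push_cast
      ring
  cases l₂ with
  | nil =>
    rw [List.append_nil] at h
    rw [List.nil_append] at ht
    rw [ht] at h
    exact key f t h
  | cons g l₂ =>
    rw [List.cons_append] at ht
    obtain ⟨rfl, rfl⟩ := List.cons.inj ht
    cases l₁ with
    | nil =>
      rw [List.append_nil]
      rw [List.nil_append] at h
      exact key g l₂ h
    | cons a l₁ =>
      obtain ⟨h1, h2, h3⟩ := List.pairwise_append.1 h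
      have s1 := csum_sorted h1
      have s2 := csum_sorted h2
      rcases List.eq_nil_or_concat l₂ with rfl | ⟨l₂', b, rfl⟩
      · -- `l₂ = [g]`
        rcases List.eq_nil_or_concat l₁ with rfl | ⟨l₁', c, rfl⟩
        · have hag : a < g := h3 a (by simp) g (by simp)
          simp only [List.nil_append, List.cons_append, csum_cons, csum_one]
          rw [sgn, if_neg (not_lt.2 hag.le), sgn, if_pos hag]
          simp
        · rw [List.concat_eq_append] at *
          have hcg : c < g := h3 c (by simp) g (by simp)
          have hag : a < g := h3 a (by simp) g (by simp)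
          have e : g :: ([] ++ a :: (l₁' ++ [c])) ++ [g] = (g :: a :: l₁') ++ c :: g :: [] := by simp
          rw [e, csum_append, csum_one]
          have e2 : g :: a :: l₁' ++ [c] = g :: a :: (l₁' ++ [c]) := by simp
          rw [e2, csum_cons, s1, sgn, if_neg (not_lt.2 hag.le), sgn, if_pos hcg]
          simp only [List.length_cons, List.length_append, List.length_nil, List.nil_append]
          push_cast
          ring
      · rw [List.concat_eq_append] at *
        have hab : a < b := h3 a (by simp) b (by simp)
        rcases List.eq_nil_or_concat l₁ with rfl | ⟨l₁', c, rfl⟩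
        · have hag : a < g := h3 a (by simp) g (by simp)
          have e : g :: (l₂' ++ [b] ++ [a]) ++ [g] = (g :: l₂') ++ b :: a :: [g] := by simp
          rw [e, csum_append, csum_cons, csum_one]
          have e2 : g :: l₂' ++ [b] = g :: (l₂' ++ [b]) := by simp
          rw [e2, s2, sgn, if_neg (not_lt.2 hab.le), sgn, if_pos hag]
          simp only [List.length_cons, List.length_append, List.length_nil]
          push_cast
          ring
        · rw [List.concat_eq_append] at *
          have hcg : c < g := h3 c (by simp) g (by simp)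
          have e : g :: (l₂' ++ [b] ++ a :: (l₁' ++ [c])) ++ [g] =
              (g :: l₂') ++ b :: a :: (l₁' ++ [c] ++ [g]) := by simp
          rw [e, csum_append]
          have e2 : g :: l₂' ++ [b] = g :: (l₂' ++ [b]) := by simp
          have e3 : a :: (l₁' ++ [c] ++ [g]) = (a :: l₁') ++ c :: g :: [] := by simp
          rw [e2, s2, e3, csum_append, csum_one]
          have e4 : a :: l₁' ++ [c] = a :: (l₁' ++ [c]) := by simp
          rw [e4, s1, sgn, if_neg (not_lt.2 hab.le), sgn, if_pos hcg]
          simp only [List.length_cons, List.length_append, List.length_nil]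
          push_cast
          ring

/-- the last point of an arm -/
def lst (l : List ℝ) : ℝ := l.getLast?.getD 0

/-- the mass inside the finger -/
def al (ε : ℝ) (MU ML : ℝ → ℝ) (l : List ℝ) : ℝ :=
  (MU (lst l + ε) - MU (lst l - ε)) + (ML (lst l + ε) - ML (lst l - ε))

/-- the doubled sub-star -/
def dA (ε : ℝ) (A : List (List ℝ)) : List ℝ := A.flatMap (dd (-ε))

lemma dbl_eq {ι : Type*} (ε : ℝ) (S : List (ι × List ℝ)) : dbl ε S = dA ε (S.map Prod.snd) := by
  unfold dbl dA dd
  rw [List.flatMap_map]
  simp only [neg_neg]

/-- Data of a sub-star. -/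
structure SD (ε : ℝ) (MU ML : ℝ → ℝ) (A : List (List ℝ)) : Prop where
  dat : ∀ l ∈ A, Dat ε MU ML l (lst l)
  nodup : A.flatten.Nodup
  sep : Sepd ε A.flatten

lemma SD.tail {ε : ℝ} {MU ML : ℝ → ℝ} {l : List ℝ} {A : List (List ℝ)}
    (h : SD ε MU ML (l :: A)) : SD ε MU ML A where
  dat := fun m hm => h.dat m (List.mem_cons_of_mem _ hm)
  nodup := by
    have := h.nodup
    rw [List.flatten_cons] at this
    exact (List.nodup_append.1 this).2.1
  sep := h.sep.mono fun p hp => by
    rw [List.flatten_cons, List.mem_append]
    exact Or.inr hp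

lemma Dat.ne_nil {ε : ℝ} {MU ML : ℝ → ℝ} {l : List ℝ} {z : ℝ} (h : Dat ε MU ML l z) : l ≠ [] := by
  rintro rfl
  exact absurd h.last (by simp)

lemma Dat.head_mem {ε : ℝ} {MU ML : ℝ → ℝ} {l : List ℝ} {z : ℝ} (h : Dat ε MU ML l z) :
    l.headI ∈ l := by
  cases l with
  | nil => exact absurd rfl h.ne_nil
  | cons a t => simp

/-- structure of a doubled arm -/
lemma dd_form {l : List ℝ} (hl : l ≠ []) (δ : ℝ) :
    ∃ m, dd δ l = m ++ [l.headI - δ] ∧ dd δ l = (l.headI + δ) :: m.tail ++ [l.headI - δ] ∧
      m.length + 1 = 2 * l.length := by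
  cases l with
  | nil => exact absurd rfl hl
  | cons a t =>
    refine ⟨(a + δ) :: dd (-δ) t, ?_, ?_, ?_⟩
    · rw [dd_cons]; simp
    · rw [dd_cons]; simp
    · rw [List.length_cons, dd_length, List.length_cons]; ring

lemma dA_cons (ε : ℝ) (l : List ℝ) (A : List (List ℝ)) :
    dA ε (l :: A) = dd (-ε) l ++ dA ε A := by simp [dA]

lemma dA_cons_head {ε : ℝ} {l : List ℝ} (hl : l ≠ []) (A : List (List ℝ)) :
    ∃ t', dA ε (l :: A) = (l.headI - ε) :: t' := by
  obtain ⟨m', -, h2, -⟩ := dd_form hl (-ε)
  refine ⟨m'.tail ++ [l.headI - -ε] ++ dA ε A, ?_⟩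
  rw [dA_cons, h2, ← sub_eq_add_neg]
  simp

/-- The increment of the upper potential along the doubled sub-star. -/
theorem sum_path {B ε : ℝ} (hε : 0 < ε) {MU ML E : ℝ → ℝ} (l : List ℝ) (A : List (List ℝ)) :
    SD ε MU ML (l :: A) → Cons B MU ML E false (dA ε (l :: A)) →
    ∃ m f, dA ε (l :: A) = m ++ [f + ε] ∧ (l :: A).map List.headI = ((l :: A).map List.headI).dropLast ++ [f] ∧
      (∃ j, m.length = 2 * j + 1) ∧
      Ph MU ML E true (f + ε) - Ph MU ML E true (l.headI - ε) =
        (((l :: A).map fun l => B - al ε MU ML l).sum) - B * csum ((l :: A).map List.headI) := by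
  induction A generalizing l with
  | nil =>
    intro hS hC
    have hD := hS.dat l (by simp)
    obtain ⟨m, h1, -, h3⟩ := dd_form hD.ne_nil (-ε)
    have e : dA ε [l] = dd (-ε) l := by simp [dA]
    rw [e] at hC ⊢
    have h4 := darm hε l (pg := false) (δ := -ε) (Or.inl ⟨rfl, rfl⟩) hD hC
    refine ⟨m, l.headI, ?_, by simp, ⟨l.length - 1, ?_⟩, ?_⟩
    · rw [h1, sub_neg_eq_add]
    · have : 0 < l.length := List.length_pos_of_ne_nil hD.ne_nil
      omega
    · simp only [List.map_cons, List.map_nil, List.sum_cons, List.sum_nil, csum_one, mul_zero,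
        sub_zero, add_zero, al]
      rw [Bool.not_false, sub_neg_eq_add, ← sub_eq_add_neg] at h4
      exact h4
  | cons l' A ih =>
    intro hS hC
    have hD := hS.dat l (by simp)
    have hD' := hS.dat l' (by simp)
    obtain ⟨m, h1, -, h3⟩ := dd_form hD.ne_nil (-ε)
    have e : dA ε (l :: l' :: A) = dd (-ε) l ++ dA ε (l' :: A) := by simp [dA]
    obtain ⟨t', ht'⟩ := dA_cons_head (ε := ε) hD'.ne_nil A
    have hm : fl m.length false = true := by
      have h4 : fl (m.length + 1) false = false := by rw [h3, fl_two_mul]
      rw [fl_succ] at h4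
      simpa using h4
    rw [e, h1, ht', sub_neg_eq_add] at hC
    have hC' : Cons B MU ML E false (m ++ (l.headI + ε) :: (l'.headI - ε) :: t') := by
      rw [List.append_assoc] at hC
      exact hC
    rw [cons_append, hm, fl_succ, hm, Bool.not_true] at hC'
    obtain ⟨c1, c2, c3⟩ := hC'
    rw [← ht'] at c3
    obtain ⟨m2, f, i1, i2, ⟨j, hj⟩, i3⟩ := ih l' hS.tail c3
    have hC1 : Cons B MU ML E false (dd (-ε) l) := by rw [h1, sub_neg_eq_add]; exact c1
    have h4 := darm hε l (pg := false) (δ := -ε) (Or.inl ⟨rfl, rfl⟩) hD hC1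
    rw [Bool.not_false, sub_neg_eq_add, ← sub_eq_add_neg] at h4
    have h5 := ph_step c2
    have hne : l.headI ≠ l'.headI := by
      intro h
      have hn := hS.nodup
      rw [List.flatten_cons, List.nodup_append] at hn
      refine hn.2.2 l.headI hD.head_mem l.headI ?_ rfl
      rw [h, List.flatten_cons, List.mem_append]
      exact Or.inl hD'.head_mem
    have hs : sgn (l.headI + ε) (l'.headI - ε) = sgn l.headI l'.headI := by
      rw [sub_eq_add_neg]
      apply sgn_shift hS.sep ?_ ?_ hne (by rw [abs_of_pos hε]) (by rw [abs_neg, abs_of_pos hε])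
      · rw [List.flatten_cons, List.mem_append]
        exact Or.inl hD.head_mem
      · rw [List.flatten_cons, List.flatten_cons, List.mem_append, List.mem_append]
        exact Or.inr (Or.inl hD'.head_mem)
    rw [hs] at h5
    refine ⟨dd (-ε) l ++ m2, f, ?_, ?_, ⟨l.length + j, ?_⟩, ?_⟩
    · rw [e, i1, List.append_assoc]
    · rw [List.map_cons]
      conv_lhs => rw [i2]
      rw [List.map_cons, List.dropLast_cons_cons, List.cons_append]
    · rw [List.length_append, dd_length, hj]; ring
    · rw [List.map_cons, List.sum_cons, List.map_cons (f := List.headI), List.map_cons (f := List.headI),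
        csum_cons, ← List.map_cons (f := List.headI)]
      have hk : ks true = 1 := rfl
      rw [hk] at h5
      simp only [al] at i3 ⊢
      linear_combination h4 + h5 + i3

/-- **Existence of a consistent function on a closed doubled sub-star** which halves the mass. -/
theorem exists_closed {B ε : ℝ} (hε : 0 < ε) {MU ML : ℝ → ℝ} {A : List (List ℝ)} (hA : A ≠ [])
    (hS : SD ε MU ML A) (hn : (dA ε A).Nodup) {l₁ l₂ : List ℝ}
    (hf : A.map List.headI = l₂ ++ l₁) (hs : (l₁ ++ l₂).Pairwise (· < ·))
    (hal : (A.map (al ε MU ML)).sum = 2 * B) :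
    ∃ E : ℝ → ℝ, Cons B MU ML E false (dA ε A ++ [(dA ε A).headI]) := by
  obtain ⟨E, hE⟩ := exists_cons_path B MU ML hn false
  refine ⟨E, ?_⟩
  cases A with
  | nil => exact absurd rfl hA
  | cons l A =>
    obtain ⟨m, f, h1, h2, ⟨j, hj⟩, h3⟩ := sum_path hε l A hS hE
    have hD := hS.dat l (by simp)
    obtain ⟨t', ht'⟩ := dA_cons_head (ε := ε) hD.ne_nil A
    have hh : (dA ε (l :: A)).headI = l.headI - ε := by rw [ht']; rfl
    rw [hh]
    rw [h1] at hE ⊢
    rw [List.append_assoc]
    show Cons B MU ML E false (m ++ (f + ε) :: (l.headI - ε) :: [])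
    rw [cons_append]
    have hpg : fl m.length false = true := by
      rw [hj, fl_succ, fl_two_mul]; rfl
    refine ⟨hE, ?_, cons_one _⟩
    rw [hpg, inc_true]
    -- the signs
    have hc : csum ((l :: A).map List.headI) + sgn f l.headI = ((l :: A).length : ℝ) - 2 := by
      have h4 := csum_cyc hs (f := l.headI) (t := A.map List.headI) (by rw [← hf]; rfl)
      have e : l.headI :: A.map List.headI ++ [l.headI] =
          ((l :: A).map List.headI).dropLast ++ f :: l.headI :: [] := by
        have : l.headI :: A.map List.headI = (l :: A).map List.headI := rfl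
        rw [this]
        conv_lhs => rw [h2]
        simp
      rw [e, csum_append, csum_one, ← h2] at h4
      rw [add_zero] at h4
      rw [h4]
      simp
    have hsg : sgn (f + ε) (l.headI - ε) = sgn f l.headI := by
      by_cases hfl : f = l.headI
      · rw [hfl, sgn_self, sgn, if_neg (by linarith)]
      · rw [sub_eq_add_neg]
        apply sgn_shift hS.sep ?_ ?_ hfl (by rw [abs_of_pos hε]) (by rw [abs_neg, abs_of_pos hε])
        · have : f ∈ (l :: A).map List.headI := by rw [h2]; simp
          rw [List.mem_map] at this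
          obtain ⟨q, hq, rfl⟩ := this
          exact List.mem_flatten.2 ⟨q, hq, (hS.dat q hq).head_mem⟩
        · exact List.mem_flatten.2 ⟨l, by simp, hD.head_mem⟩
    rw [hsg]
    have hsum : (((l :: A).map fun l => B - al ε MU ML l).sum) =
        ((l :: A).length : ℝ) * B - 2 * B := by
      rw [← hal]
      generalize l :: A = A'
      induction A' with
      | nil => simp
      | cons q A' ih =>
        rw [List.map_cons, List.sum_cons, ih, List.map_cons, List.sum_cons, List.length_cons]
        push_cast
        ring
    rw [hsum] at h3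
    simp only [Ph, if_true] at h3
    have hc' : csum ((l :: A).map List.headI) = ((l :: A).length : ℝ) - 2 - sgn f l.headI := by
      linarith
    rw [hc'] at h3
    linear_combination -h3

end Vale.Agent.P040.H908
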