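import Vale.Agent.P040.H908.Tri
import Vale.Agent.P040.H522.Finger
import Vale.Agent.P040.H251.SelInst

/-!
# The triangle rule for the values of the selector on doubled sub-stars (helper908)
-/

set_option autoImplicit false

namespace Vale.Agent.P040.H908

open Pst P040H251

/-! ### from consistent functions on cyclic paths to curves -/

lemma fl_even {i : ℕ} (h : i % 2 = 0) (b : Bool) : fl i b = b := by
  obtain ⟨k, rfl⟩ : ∃ k, i = 2 * k := ⟨i / 2, by omega⟩
  exact fl_two_mul k b

lemma fl_odd {i : ℕ} (h : i % 2 = 1) (b : Bool) : fl i b = !b := by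
  obtain ⟨k, rfl⟩ : ∃ k, i = 2 * k + 1 := ⟨i / 2, by omega⟩
  rw [fl_succ, fl_two_mul]

lemma pcs_g (l : List ℝ) : ∀ (pg : Bool) (i : ℕ), i + 1 < l.length →
    (fl i pg, g l i, g l (i + 1)) ∈ pcs pg l := by
  induction l with
  | nil => intro pg i h; simp at h
  | cons a t ih =>
    intro pg i h
    cases t with
    | nil => simp at h
    | cons b t =>
      rw [pcs_cons]
      cases i with
      | zero => simp [g, fl]
      | succ i =>
        have h1 := ih (!pg) i (by simpa using h)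
        refine List.mem_cons_of_mem _ ?_
        simpa [g, fl] using h1

lemma pcs_cyc {L : List ℝ} (he : L.length % 2 = 0) {s : Bool} {i : ℕ} (h : i < L.length) :
    (fl i s, g L i, if i + 1 = L.length then g L 0 else g L (i + 1)) ∈ pcs s (L ++ [L.headI]) := by
  have h1 := pcs_g (L ++ [L.headI]) s i (by simpa using h)
  have e1 : g (L ++ [L.headI]) i = g L i := by
    unfold g; rw [List.getD_append _ _ _ _ h]
  have e2 : g (L ++ [L.headI]) (i + 1) = if i + 1 = L.length then g L 0 else g L (i + 1) := by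
    split_ifs with hh
    · unfold g
      rw [List.getD_append_right _ _ _ _ (by omega), hh]
      cases L with
      | nil => simp at h
      | cons a t => simp
    · unfold g; rw [List.getD_append _ _ _ _ (by omega)]
  rw [e1, e2] at h1
  exact h1

lemma pcs_f {L : List ℝ} (h : CL L) (s b : Bool) {x : ℝ} (hx : x ∈ L) :
    (b, x, fO s L b x) ∈ pcs s (L ++ [L.headI]) ∨ (b, fO s L b x, x) ∈ pcs s (L ++ [L.headI]) := by
  obtain ⟨i, hi, rfl⟩ := ex_idx hx
  have he := h.even
  have key : ∀ j < L.length, (fl j s, g L j, if j + 1 = L.length then g L 0 else g L (j + 1)) ∈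
      pcs s (L ++ [L.headI]) := fun j hj => pcs_cyc he hj
  have hu : ∀ s' : Bool, s' = s → (s', g L i, uOf L (g L i)) ∈ pcs s (L ++ [L.headI]) ∨
      (s', uOf L (g L i), g L i) ∈ pcs s (L ++ [L.headI]) := by
    rintro s' rfl
    rw [u_g h hi]
    rcases uI_cases i with ⟨h1, h2⟩ | ⟨h1, h2⟩
    · left
      have := key i hi
      rw [fl_even h1, if_neg (by omega)] at this
      rw [h2]; exact this
    · right
      have := key (i - 1) (by omega)
      rw [fl_even (by omega), if_neg (by omega)] at this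
      rw [h2]
      have e : i - 1 + 1 = i := by omega
      rw [e] at this
      exact this
  have hl : ∀ s' : Bool, s' = !s → (s', g L i, lOf L (g L i)) ∈ pcs s (L ++ [L.headI]) ∨
      (s', lOf L (g L i), g L i) ∈ pcs s (L ++ [L.headI]) := by
    rintro s' rfl
    rw [l_g h hi]
    rcases lI_cases L.length i with ⟨h1, h2, h3⟩ | ⟨h1, h2, h3⟩ | ⟨h1, h3⟩ | ⟨h1, h2, h3⟩
    · left
      have := key i hi
      rw [fl_odd h1, if_pos h2] at this
      rw [h3]; exact this
    · left
      have := key i hi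
      rw [fl_odd h1, if_neg h2] at this
      rw [h3]; exact this
    · right
      have := key (L.length - 1) (by omega)
      rw [fl_odd (by omega), if_pos (by omega)] at this
      rw [h3, h1]; exact this
    · right
      have := key (i - 1) (by omega)
      rw [fl_odd (by omega), if_neg (by omega)] at this
      rw [h3]
      have e : i - 1 + 1 = i := by omega
      rw [e] at this
      exact this
  cases s <;> cases b
  · exact hu false rfl
  · exact hl true rfl
  · exact hl false rfl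
  · exact hu true rfl

lemma planar_of {L : List ℝ} (h : CL L) {s : Bool}
    (hnc : ∀ c a b a' b', (c, a, b) ∈ pcs s (L ++ [L.headI]) →
      (c, a', b') ∈ pcs s (L ++ [L.headI]) → ¬ Topo.Inter a b a' b') : Planar s L := by
  intro b x hx y hy hxy
  have hni : ¬ Topo.Inter x (fO s L b x) y (fO s L b y) := by
    rcases pcs_f h s b hx with h1 | h1 <;> rcases pcs_f h s b hy with h2 | h2
    · exact hnc _ _ _ _ _ h1 h2
    · rw [Pst.inter_swap_right]; exact hnc _ _ _ _ _ h1 h2
    · rw [Pst.inter_swap_left]; exact hnc _ _ _ _ _ h1 h2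
    · rw [Pst.inter_swap_left, Pst.inter_swap_right]; exact hnc _ _ _ _ _ h1 h2
  have n1 : y ≠ x := by rintro rfl; unfold H906.Cyc at hxy; rcases hxy with h | h | h <;> linarith [h.1, h.2]
  have n2 : y ≠ fO s L b x := by
    rintro h; unfold H906.Cyc at hxy; rw [← h] at hxy
    rcases hxy with h | h | h <;> linarith [h.1, h.2]
  have n3 := f_ne h s b hx
  have n4 := f_ne h s b hy
  have n5 : fO s L b y ≠ x := by
    intro hh
    apply n2
    rw [← hh, f_f h s b hy]
  have n6 : fO s L b y ≠ fO s L b x := by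
    intro hh
    apply n1
    rw [← f_f h s b hy, hh, f_f h s b hx]
  generalize fO s L b x = fx at *
  generalize fO s L b y = fy at *
  unfold H906.Cyc at hxy ⊢
  unfold Topo.Inter at hni
  rcases lt_or_gt_of_ne n3 with q3 | q3 <;> rcases lt_or_gt_of_ne n4 with q4 | q4 <;>
    simp only [min_eq_left q3.le, min_eq_right q3.le, max_eq_left q3.le, max_eq_right q3.le,
      min_eq_left q4.le, min_eq_right q4.le, max_eq_left q4.le, max_eq_right q4.le] at hni <;>
  rcases lt_or_gt_of_ne n1 with q1 | q1 <;> rcases lt_or_gt_of_ne n2 with q2 | q2 <;>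
  rcases lt_or_gt_of_ne n5 with q5 | q5 <;> rcases lt_or_gt_of_ne n6 with q6 | q6 <;>
    first
    | (exfalso; rcases hxy with h | h | h <;> linarith [h.1, h.2])
    | (left; exact ⟨by assumption, by assumption⟩)
    | (right; left; exact ⟨by assumption, by assumption⟩)
    | (right; right; exact ⟨by assumption, by assumption⟩)
    | (exfalso; exact hni (Or.inl ⟨by assumption, by assumption, by assumption⟩))
    | (exfalso; exact hni (Or.inr ⟨by assumption, by assumption, by assumption⟩))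

theorem crv_of_cons {D : P040H251.Dat ℝ} {s : Bool} {L : List ℝ} {E : ℝ → ℝ} (h : CL L)
    (hpl : Planar s L)
    (hE : Cons D.M (fun x => D.C true (D.lab x)) (fun x => D.C false (D.lab x)) E s
      (L ++ [L.headI])) : Crv D s L E := by
  refine ⟨h, hpl, fun b x hx => ?_⟩
  have hne := f_ne h s b hx
  have main : E (fO s L b x) - E x = inc D.M (fun x => D.C true (D.lab x))
      (fun x => D.C false (D.lab x)) b x (fO s L b x) := by
    rcases pcs_f h s b hx with h1 | h1
    · exact hE _ _ _ h1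
    · have h2 := hE _ _ _ h1
      rw [inc_swap hne.symm] at h2
      linarith
  rw [main]
  cases b
  · have e : H906.sg false = -1 := by simp [H906.sg]
    rw [inc_false, e]
    unfold sgn
    split_ifs <;> ring
  · have e : H906.sg true = 1 := by simp [H906.sg]
    rw [inc_true, e]
    unfold sgn
    split_ifs <;> ring

/-! ### the moved labels -/

/-- the labels after the leaf `z` has been moved to `z - 2 ε` -/
noncomputable def mvD (ε z : ℝ) (D : P040H251.Dat ℝ) : P040H251.Dat ℝ where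
  lab := fun x => if z - 2 * ε < x ∧ x < z + ε then D.lab (z + ε) else D.lab x
  mono := by
    intro x y hxy
    dsimp only
    split_ifs with h1 h2 h2
    · exact le_rfl
    · apply D.mono
      by_contra hh
      push Not at hh
      exact h2 ⟨by linarith [h1.1], hh⟩
    · apply D.mono
      linarith [h2.2]
    · exact D.mono hxy
  C := D.C
  Cmono := D.Cmono
  M := D.M
  pos := D.pos
  tot := D.tot

lemma mvD_C {ε z : ℝ} {D : P040H251.Dat ℝ} (b : Bool) :
    (fun x => (mvD ε z D).C b ((mvD ε z D).lab x)) = mv ε z (fun x => D.C b (D.lab x)) := by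
  funext x
  unfold mvD mv
  dsimp only
  split_ifs <;> rfl

lemma mvD_far {ε z x : ℝ} {D : P040H251.Dat ℝ} (h : x ≤ z - 2 * ε ∨ z + ε ≤ x) :
    (mvD ε z D).lab x = D.lab x := by
  unfold mvD
  dsimp only
  rw [if_neg]
  rintro ⟨h1, h2⟩
  rcases h with h | h <;> linarith

lemma mvD_other {ε z p σ : ℝ} {D : P040H251.Dat ℝ} (h : 3 * ε < |p - z|) (hσ : |σ| ≤ ε) :
    (mvD ε z D).lab (p + σ) = D.lab (p + σ) := by
  have h1 := abs_le.1 hσ
  apply mvD_far
  rcases lt_abs.1 h with h2 | h2
  · right; linarith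
  · left; linarith

lemma crv_congr {D D' : P040H251.Dat ℝ} {s : Bool} {L : List ℝ} {E : ℝ → ℝ} (h : Crv D s L E)
    (hM : D'.M = D.M) (hC : ∀ b, ∀ x ∈ L, D'.C b (D'.lab x) = D.C b (D.lab x)) :
    Crv D' s L E := by
  refine ⟨h.cl, h.pl, fun b x hx => ?_⟩
  rw [h.inc b x hx, hC b x hx, hC b _ (f_mem h.cl s b hx), hM]

lemma pcs_mono {pg : Bool} {l : List ℝ} {x : ℝ} {q : Bool × ℝ × ℝ} (h : q ∈ pcs pg l) :
    q ∈ pcs pg (l ++ [x]) := by
  rcases List.eq_nil_or_concat' l with rfl | ⟨l', y, rfl⟩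
  · simp at h
  · rw [List.append_assoc]
    show q ∈ pcs pg (l' ++ y :: x :: [])
    rw [pcs_append]
    exact List.mem_append_left _ h

lemma Cons.of_concat {B : ℝ} {MU ML E : ℝ → ℝ} {pg : Bool} {l : List ℝ} {x : ℝ}
    (h : Cons B MU ML E pg (l ++ [x])) : Cons B MU ML E pg l :=
  fun c a b hm => h c a b (pcs_mono hm)

lemma pts_eq {ι : Type*} (S : List (ι × List ℝ)) : pts S = (S.map Prod.snd).flatten := by
  unfold pts; rw [List.flatMap_def]

section
variable {ι : Type*} {ε : ℝ} {D : P040H251.Dat ℝ}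

/-- the data of a doubled sub-star with `2 M + 1` leaves -/
structure SubS (ε : ℝ) (D : P040H251.Dat ℝ) (m : ℝ) (S : List (ι × List ℝ)) : Prop where
  pos : 0 < ε
  sd : SD ε (fun x => D.C true (D.lab x)) (fun x => D.C false (D.lab x)) (S.map Prod.snd)
  lab : ∀ l ∈ S, ∀ p ∈ l.2.dropLast, D.lab (p - ε) = D.lab (p + ε)
  sum : ((S.map Prod.snd).map
    (al ε (fun x => D.C true (D.lab x)) (fun x => D.C false (D.lab x)))).sum = m
  nc : ∀ c a b a' b', (c, a, b) ∈ cpcs (dbl ε S) → (c, a', b') ∈ cpcs (dbl ε S) →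
    ¬ Topo.Inter a b a' b'
  cyc : ∃ l₁ l₂, fsts S = l₂ ++ l₁ ∧ (l₁ ++ l₂).Pairwise (· < ·)

lemma SubS.nodup {m : ℝ} {S : List (ι × List ℝ)} (h : SubS ε D m S) : (dbl ε S).Nodup :=
  dbl_nodup (by rw [pts_eq]; exact h.sd.nodup) (by rw [pts_eq]; exact h.sd.sep) h.pos

/-- the closed curve of a sub-star of the right mass -/
theorem SubS.crv {S : List (ι × List ℝ)} (h : SubS ε D (2 * D.M) S) (hne : S ≠ []) :
    ∃ E, Cons D.M (fun x => D.C true (D.lab x)) (fun x => D.C false (D.lab x)) E false (dbl ε S) ∧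
      Crv D false (dbl ε S) E := by
  obtain ⟨l₁, l₂, hf, hs⟩ := h.cyc
  have hf' : (S.map Prod.snd).map List.headI = l₂ ++ l₁ := by
    rw [← hf]; simp [fsts]
  obtain ⟨E, hE⟩ := exists_closed (B := D.M) h.pos (A := S.map Prod.snd) (by simpa using hne) h.sd
    (by rw [← dbl_eq]; exact h.nodup) hf' hs h.sum
  rw [← dbl_eq] at hE
  have hcl : CL (dbl ε S) := by
    refine ⟨h.nodup, ?_, ?_⟩
    · have := dbl_length_even ε S
      exact Nat.even_iff.1 this
    · cases S with
      | nil => exact absurd rfl hne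
      | cons q T =>
        have hq := (h.sd.dat q.2 (by simp)).ne_nil
        rw [dbl_cons]
        cases hq2 : q.2 with
        | nil => exact absurd hq2 hq
        | cons x t => simp
  exact ⟨E, hE.of_concat, crv_of_cons hcl (planar_of hcl h.nc) hE⟩

/-- one leaf is moved out of its finger -/
theorem SubS.mv {m : ℝ} {S : List (ι × List ℝ)} (h : SubS ε D m S) {q : ι × List ℝ} (hq : q ∈ S)
    (h1 : al ε (fun x => D.C true (D.lab x)) (fun x => D.C false (D.lab x)) q.2 = 1) :
    SubS ε (mvD ε (lst q.2) D) (m - 1) S where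
  pos := h.pos
  sd := by
    rw [mvD_C, mvD_C]
    exact h.sd.mv h.pos (List.mem_map_of_mem hq)
  lab := by
    intro l hl p hp
    have hf := h.sd.far (List.mem_map_of_mem hl) (List.mem_map_of_mem hq) hp
    rw [sub_eq_add_neg, mvD_other hf (abs_neg_eps h.pos), mvD_other hf (abs_eps h.pos),
      ← sub_eq_add_neg]
    exact h.lab l hl p hp
  sum := by
    rw [mvD_C, mvD_C, sum_al_mv h.pos h.sd (List.mem_map_of_mem hq), h.sum, h1]
  nc := h.nc
  cyc := h.cyc

/-- **One leaf skipped**: a phase on the whole doubled sub-star whose value is the value of the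
sub-star without the arm `q`. -/
theorem SubS.skip (T : SelApi ℝ) {S₁ S₂ : List (ι × List ℝ)} {q : ι × List ℝ}
    (h : SubS ε D (2 * D.M + 1) (S₁ ++ q :: S₂))
    (h1 : al ε (fun x => D.C true (D.lab x)) (fun x => D.C false (D.lab x)) q.2 = 1)
    (hne : 0 < (dbl ε (S₁ ++ S₂)).length) :
    ∃ E : ℝ → ℝ, Cons D.M (H908.mv ε (lst q.2) fun x => D.C true (D.lab x))
        (H908.mv ε (lst q.2) fun x => D.C false (D.lab x)) E false (dbl ε (S₁ ++ q :: S₂)) ∧
      (cfg false (dbl ε (S₁ ++ q :: S₂))).Good ∧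
      (cfg false (dbl ε (S₁ ++ q :: S₂))).Valid E D.M ∧
      Crv D false (dbl ε (S₁ ++ S₂)) E ∧
      T.val false (dbl ε (S₁ ++ S₂)) E = T.val false (dbl ε (S₁ ++ q :: S₂)) E := by
  have hq : q ∈ S₁ ++ q :: S₂ := by simp
  have h2 := h.mv hq h1
  rw [add_sub_cancel_right] at h2
  have h2' : SubS ε (mvD ε (lst q.2) D) (2 * (mvD ε (lst q.2) D).M) (S₁ ++ q :: S₂) := h2
  obtain ⟨E, hE, hC⟩ := h2'.crv (by simp)
  rw [mvD_C, mvD_C] at hE
  have hD := h.sd.dat q.2 (List.mem_map_of_mem hq)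
  have hsep : Sepd ε (pts (S₁ ++ q :: S₂)) := by rw [pts_eq]; exact h.sd.sep
  obtain ⟨h3, h4⟩ := dbl_finger T hsep h.pos (by
    intro p hp
    rw [hD.split, List.mem_append, List.mem_singleton] at hp
    rcases hp with hp | rfl
    · exact h2.lab q hq p hp
    · have hpos := h.pos
      unfold mvD
      dsimp only
      rw [if_pos ⟨by linarith, by linarith⟩, if_neg]
      rintro ⟨-, hh⟩
      exact lt_irrefl _ hh) hne hC
  refine ⟨E, hE, hC.good, hC.valid, crv_congr h3 rfl ?_, h4⟩
  intro b x hx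
  obtain ⟨q', hq', y, hy, σ, hσ, rfl⟩ := mem_dbl hx
  have hne' : y ≠ lst q.2 := by
    rintro rfl
    have hn := h.sd.nodup
    rw [List.map_append, List.map_cons, List.flatten_append, List.flatten_cons,
      List.nodup_append, List.nodup_append] at hn
    obtain ⟨-, ⟨-, -, hn2⟩, hn3⟩ := hn
    rcases List.mem_append.1 hq' with hh | hh
    · exact hn3 _ (List.mem_flatten.2 ⟨_, List.mem_map_of_mem hh, hy⟩) _
        (List.mem_append_left _ hD.mem) rfl
    · exact hn2 _ hD.mem _ (List.mem_flatten.2 ⟨_, List.mem_map_of_mem hh, hy⟩) rfl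
  have hfar : 3 * ε < |y - lst q.2| := by
    refine h.sd.sep y (List.mem_flatten.2 ⟨_, List.mem_map_of_mem (a := q') ?_, hy⟩) _
      (List.mem_flatten.2 ⟨_, List.mem_map_of_mem hq, hD.mem⟩) hne'
    rcases List.mem_append.1 hq' with hh | hh <;> simp [hh]
  rw [mvD_other hfar (by rw [hσ, abs_of_pos h.pos])]
  rfl

/-- monotonicity of the value, with a constant -/
lemma val_mono (T : SelApi ℝ) {L : List ℝ} {s : Bool} {E E' : ℝ → ℝ} {M M' : ℝ}
    (hg : (cfg s L).Good) (hv : (cfg s L).Valid E M) (hv' : (cfg s L).Valid E' M') (t : ℝ)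
    (hle : ∀ p ∈ L, E p + t ≤ E' p) : T.val s L E + t ≤ T.val s L E' := by
  unfold SelApi.val
  rw [← T.add (cfg s L) E M t hg hv]
  refine T.mono _ _ _ M M' hg (valid_add t hv) hv' ?_
  intro x hx
  exact hle x (by simpa using hx)

/-- **The triangle rule for the values of the selector.** -/
theorem SubS.tri (T : SelApi ℝ) {S0 M M' S1 : List (ι × List ℝ)} {a b c : ι × List ℝ}
    (h : SubS ε D (2 * D.M + 1) (S0 ++ a :: (M ++ b :: (M' ++ c :: S1))))
    (ha : al ε (fun x => D.C true (D.lab x)) (fun x => D.C false (D.lab x)) a.2 = 1)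
    (hb : al ε (fun x => D.C true (D.lab x)) (fun x => D.C false (D.lab x)) b.2 = 1)
    (hc : al ε (fun x => D.C true (D.lab x)) (fun x => D.C false (D.lab x)) c.2 = 1) :
    ∃ Ea Eb Ec : ℝ → ℝ,
      Crv D false (dbl ε (S0 ++ (M ++ b :: (M' ++ c :: S1)))) Ea ∧
      Crv D false (dbl ε (S0 ++ a :: (M ++ (M' ++ c :: S1)))) Eb ∧
      Crv D false (dbl ε (S0 ++ a :: (M ++ b :: (M' ++ S1)))) Ec ∧
      0 ≤ (T.val false (dbl ε (S0 ++ (M ++ b :: (M' ++ c :: S1)))) Ea - Ea (lst c.2 + ε)) -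
        (T.val false (dbl ε (S0 ++ a :: (M ++ (M' ++ c :: S1)))) Eb - Eb (lst c.2 + ε)) ∧
      0 ≤ (T.val false (dbl ε (S0 ++ a :: (M ++ (M' ++ c :: S1)))) Eb - Eb (lst a.2 + ε)) -
        (T.val false (dbl ε (S0 ++ a :: (M ++ b :: (M' ++ S1)))) Ec - Ec (lst a.2 + ε)) ∧
      0 ≤ (T.val false (dbl ε (S0 ++ a :: (M ++ b :: (M' ++ S1)))) Ec - Ec (lst b.2 + ε)) -
        (T.val false (dbl ε (S0 ++ (M ++ b :: (M' ++ c :: S1)))) Ea - Ea (lst b.2 + ε)) ∧
      ((T.val false (dbl ε (S0 ++ (M ++ b :: (M' ++ c :: S1)))) Ea - Ea (lst c.2 + ε)) -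
        (T.val false (dbl ε (S0 ++ a :: (M ++ (M' ++ c :: S1)))) Eb - Eb (lst c.2 + ε))) +
      ((T.val false (dbl ε (S0 ++ a :: (M ++ (M' ++ c :: S1)))) Eb - Eb (lst a.2 + ε)) -
        (T.val false (dbl ε (S0 ++ a :: (M ++ b :: (M' ++ S1)))) Ec - Ec (lst a.2 + ε))) +
      ((T.val false (dbl ε (S0 ++ a :: (M ++ b :: (M' ++ S1)))) Ec - Ec (lst b.2 + ε)) -
        (T.val false (dbl ε (S0 ++ (M ++ b :: (M' ++ c :: S1)))) Ea - Ea (lst b.2 + ε))) = 1 := by
  have hpos : ∀ {S : List (ι × List ℝ)} {q : ι × List ℝ}, q ∈ S →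
      (∀ r ∈ S, r ∈ S0 ++ a :: (M ++ b :: (M' ++ c :: S1))) → 0 < (dbl ε S).length := by
    intro S q hq hS
    have hne := (h.sd.dat q.2 (List.mem_map_of_mem (hS q hq))).ne_nil
    obtain ⟨S', S'', rfl⟩ := List.append_of_mem hq
    rw [dbl_append, dbl_cons]
    cases hq2 : q.2 with
    | nil => exact absurd hq2 hne
    | cons x t => simp
  set S := S0 ++ a :: (M ++ b :: (M' ++ c :: S1)) with hS
  have e2 : S = (S0 ++ a :: M) ++ b :: (M' ++ c :: S1) := by rw [hS]; simp
  have e3 : S = (S0 ++ a :: (M ++ b :: M')) ++ c :: S1 := by rw [hS]; simp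
  have f2 : (S0 ++ a :: M) ++ (M' ++ c :: S1) = S0 ++ a :: (M ++ (M' ++ c :: S1)) := by simp
  have f3 : (S0 ++ a :: (M ++ b :: M')) ++ S1 = S0 ++ a :: (M ++ b :: (M' ++ S1)) := by simp
  obtain ⟨Ea, a1, a2, a3, a4, a5⟩ := SubS.skip T (D := D) (S₁ := S0)
    (S₂ := M ++ b :: (M' ++ c :: S1)) (q := a) h ha (hpos (q := b) (by simp) (by
      intro r hr; rw [hS]; simp only [List.mem_append, List.mem_cons] at hr ⊢; tauto))
  obtain ⟨Eb, b1, b2, b3, b4, b5⟩ := SubS.skip T (D := D) (S₁ := S0 ++ a :: M)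
    (S₂ := M' ++ c :: S1) (q := b) (by rw [← e2]; exact h) hb (hpos (q := a) (by simp) (by
      intro r hr; rw [hS]; simp only [List.mem_append, List.mem_cons] at hr ⊢; tauto))
  obtain ⟨Ec, c1, c2, c3, c4, c5⟩ := SubS.skip T (D := D) (S₁ := S0 ++ a :: (M ++ b :: M'))
    (S₂ := S1) (q := c) (by rw [← e3]; exact h) hc (hpos (q := a) (by simp) (by
      intro r hr; rw [hS]; simp only [List.mem_append, List.mem_cons] at hr ⊢; tauto))
  rw [← e2] at b1 b2 b3 b5
  rw [← e3] at c1 c2 c3 c5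
  rw [f2] at b4 b5
  rw [f3] at c4 c5
  rw [← hS] at a1 a2 a3 a5
  refine ⟨Ea, Eb, Ec, a4, b4, c4, ?_⟩
  rw [a5, b5, c5]
  rw [dbl_eq] at a1 b1 c1
  have em : S.map Prod.snd = S0.map Prod.snd ++ a.2 :: (M.map Prod.snd ++ b.2 ::
      (M'.map Prod.snd ++ c.2 :: S1.map Prod.snd)) := by rw [hS]; simp
  rw [em] at a1 b1 c1
  have hsd := h.sd
  rw [em] at hsd
  have hme : ∀ p, p ∈ dbl ε S ↔ p ∈ dA ε (S0.map Prod.snd ++ a.2 :: (M.map Prod.snd ++ b.2 ::
      (M'.map Prod.snd ++ c.2 :: S1.map Prod.snd))) := by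
    intro p; rw [dbl_eq, em]
  exact H908.tri h.pos hsd (fun x y hxy => D.Cmono true (D.mono hxy))
    (fun x y hxy => D.Cmono false (D.mono hxy)) ha hb hc a1 b1 c1
    (fun s hs => val_mono T a2 b3 a3 s fun p hp => hs p ((hme p).1 hp))
    (fun s hs => val_mono T a2 c3 b3 s fun p hp => hs p ((hme p).1 hp))
    (fun s hs => val_mono T a2 a3 c3 s fun p hp => hs p ((hme p).1 hp))

/-! ### sub-stars of a star with one unit of mass at every leaf -/

/-- the labels are constant on intervals without leaves, every leaf has the mass one -/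
structure LeafD (pos : ι → ℝ) (D : P040H251.Dat ℝ) : Prop where
  const : ∀ x y, x ≤ y → (∀ i, pos i ∉ Set.Icc x y) → D.lab x = D.lab y
  mass : ∀ i x y, x < pos i → pos i < y → (∀ j, j ≠ i → pos j ∉ Set.Icc x y) →
    (D.C true (D.lab y) - D.C true (D.lab x)) + (D.C false (D.lab y) - D.C false (D.lab x)) = 1

variable {pos : ι → ℝ} {S T : List (ι × List ℝ)}

lemma lst_of {l l' : List ℝ} {z : ℝ} (h : l = l' ++ [z]) : lst l = z := by
  subst h; simp [lst]

lemma leaf_pts (hS : IsStar pos S) (i : ι) : pos i ∈ pts S := by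
  obtain ⟨q, hq, rfl⟩ := List.mem_map.1 (hS.full i)
  exact hS.leaf_mem' hq

lemma pos_inj (hS : IsStar pos S) {i j : ι} (h : pos i = pos j) : i = j := by
  obtain ⟨q, hq, rfl⟩ := List.mem_map.1 (hS.full i)
  obtain ⟨q', hq', rfl⟩ := List.mem_map.1 (hS.full j)
  obtain ⟨l, hl⟩ := hS.ends q hq
  obtain ⟨l', hl'⟩ := hS.ends q' hq'
  have hn := hS.nodup
  rw [pts_eq, List.nodup_flatten] at hn
  by_contra hne
  have hqq : q.2 ≠ q'.2 ∨ q = q' := by
    by_contra hh
    push Not at hh
    obtain ⟨h1, h2⟩ := hh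
    -- two different arms with the same list
    have h3 := hn.2
    rw [List.pairwise_map] at h3
    have : Std.Symm (fun a b : ι × List ℝ => List.Disjoint a.2 b.2) := ⟨fun _ _ h => h.symm⟩
    have := h3.forall hq hq' h2
    exact this (show pos q.1 ∈ q.2 by rw [hl]; simp) (by rw [← h1, hl]; simp)
  rcases hqq with h1 | rfl
  · have h3 := hn.2
    have : Std.Symm (List.Disjoint (α := ℝ)) := ⟨fun _ _ h => h.symm⟩
    have := h3.forall (List.mem_map_of_mem hq) (List.mem_map_of_mem hq') h1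
    exact this (show pos q.1 ∈ q.2 by rw [hl]; simp) (by rw [hl', h]; simp)
  · exact hne rfl

theorem LeafD.al_eq (hD : LeafD pos D) (hS : IsStar pos S) (hε : Sepd ε (pts S)) (h0 : 0 < ε)
    {q : ι × List ℝ} (hq : q ∈ S) :
    al ε (fun x => D.C true (D.lab x)) (fun x => D.C false (D.lab x)) q.2 = 1 := by
  obtain ⟨l, hl⟩ := hS.ends q hq
  unfold al
  rw [lst_of hl]
  refine hD.mass q.1 _ _ (by linarith) (by linarith) ?_
  intro j hj hh
  have h1 := hε _ (leaf_pts hS q.1) _ (leaf_pts hS j) (fun h => hj (pos_inj hS h).symm)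
  have : |pos q.1 - pos j| ≤ ε := by rw [abs_le]; constructor <;> linarith [hh.1, hh.2]
  linarith

theorem LeafD.subS (hD : LeafD pos D) (hS : IsStar pos S) (hT : T.Sublist S)
    (hε : Sepd ε (pts S)) (h0 : 0 < ε) : SubS ε D T.length T := by
  have hTS : ∀ q ∈ T, q ∈ S := fun q hq => hT.subset hq
  have hsub := pts_sublist hT
  have hnT : (pts T).Nodup := hS.nodup.sublist hsub
  have hlab : ∀ q ∈ T, ∀ p ∈ q.2.dropLast, D.lab (p - ε) = D.lab (p + ε) := by
    intro q hq p hp
    have hpq : p ∈ q.2 := List.mem_of_mem_dropLast hp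
    have hpS : p ∈ pts S := List.mem_flatMap.2 ⟨q, hTS q hq, hpq⟩
    refine hD.const _ _ (by linarith) ?_
    intro i hi
    have hne : p ≠ pos i := by
      rintro rfl
      obtain ⟨q', hq', rfl⟩ := List.mem_map.1 (hS.full i)
      obtain ⟨l', hl'⟩ := hS.ends q' hq'
      obtain ⟨l, hl⟩ := hS.ends q (hTS q hq)
      have hn := hS.nodup
      -- the point is in the arms `q` and `q'`
      have hqn : q.2.Nodup := by
        rw [pts_eq, List.nodup_flatten] at hn
        exact hn.1 _ (List.mem_map_of_mem (hTS q hq))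
      have hne2 : q.2 ≠ q'.2 := by
        intro h
        rw [h, hl', List.dropLast_concat] at hp
        rw [h, hl'] at hqn
        exact (List.nodup_append.1 hqn).2.2 _ hp _ (by simp) rfl
      rw [pts_eq, List.nodup_flatten] at hn
      have : Std.Symm (List.Disjoint (α := ℝ)) := ⟨fun _ _ h => h.symm⟩
      have := hn.2.forall (List.mem_map_of_mem (hTS q hq)) (List.mem_map_of_mem hq') hne2
      exact this hpq (by rw [hl']; simp)
    have h1 := hε _ hpS _ (leaf_pts hS i) hne
    have : |p - pos i| ≤ ε := by rw [abs_le]; constructor <;> linarith [hi.1, hi.2]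
    linarith
  refine ⟨h0, ⟨?_, ?_, ?_⟩, hlab, ?_, fun c a b a' b' h h' => hS.dbl_nc hT hε h0 h h', ?_⟩
  · intro l hl
    obtain ⟨q, hq, rfl⟩ := List.mem_map.1 hl
    obtain ⟨l', hl'⟩ := hS.ends q (hTS q hq)
    refine ⟨?_, ?_, ?_, ?_, ?_⟩
    · rw [lst_of hl', hl']; simp
    · have hn := hnT
      rw [pts_eq, List.nodup_flatten] at hn
      exact hn.1 _ hl
    · exact hε.mono fun p hp => List.mem_flatMap.2 ⟨q, hTS q hq, hp⟩
    · intro p hp
      rw [hlab q hq p hp]
    · intro p hp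
      rw [hlab q hq p hp]
  · rw [← pts_eq]; exact hnT
  · rw [← pts_eq]; exact hε.mono fun p hp => hsub.subset hp
  · have : ∀ q ∈ T, al ε (fun x => D.C true (D.lab x)) (fun x => D.C false (D.lab x)) q.2 = 1 :=
      fun q hq => hD.al_eq hS hε h0 (hTS q hq)
    clear hsub hnT hlab hTS hT
    induction T with
    | nil => simp
    | cons q T ih =>
      rw [List.map_cons, List.map_cons, List.sum_cons, this q (by simp),
        ih fun r hr => this r (List.mem_cons_of_mem _ hr), List.length_cons]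
      push_cast
      ring
  · have hc : Pst.Cyc (fsts S) := hS.cyc
    exact Pst.Cyc.sublist hc (List.Sublist.map _ hT)

end

end Vale.Agent.P040.H908
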