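import Vale.Agent.P040.H908.Share
import Vale.Agent.P040.H700.HexPh
import Vale.Agent.P040.H177.OddHex
import Vale.Agent.P040.H746.Hex
import Vale.Agent.P040.H610.OTri

/-!
# The hexagon rule from one sub-star (helper908)
-/

set_option autoImplicit false

namespace Vale.Agent.P040.H908

open Pst P040H251 H682 H700 Vale.Agent.P040.H906

/-- the exclusion of the triple ties, in the form of helper568 -/
def HexVt : Prop :=
  ∀ (c : Cfg ℝ) (col : ℝ → Bool) (E₀ : ℝ → ℝ) (M₀ : ℝ) (lam : Bool → ℝ → ℕ) (lab : ℝ → ZMod 3)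
    (wl : ℝ → Bool), c.Good → ColOK col c → c.Valid E₀ M₀ → H568.Law c col E₀ M₀ lam lab wl →
    ∀ Ep Em : ZMod 3 → ℝ → ℝ, (∀ i, ∃ M, c.Valid (Ep i) M) → (∀ i, ∃ M, c.Valid (Em i) M) →
    (∀ i, ∀ x ∈ c.S, col x = true → Ep i x = E₀ x + if lab x = i then 1 / 2 else 0) →
    (∀ i, ∀ x ∈ c.S, col x = true → Em i x = E₀ x - if lab x = i then 1 / 2 else 0) →
    ∑ i, (vt col c (Ep i) - vt col c (Em i)) ≤ 1

variable {h : ℕ} {P : OData h}

lemma arm_ne {S : List (Fin (2 * h + 1) × List ℝ)} (hS : IsStar P.pos S) {U V : List (Fin (2 * h + 1) × List ℝ)}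
    (hUV : (U ++ V).Sublist S) {q r : Fin (2 * h + 1) × List ℝ} (hq : q ∈ U) (hr : r ∈ V) :
    q.1 ≠ r.1 := by
  intro he
  have hn := (hS.nodup).sublist (pts_sublist hUV)
  have hp : pts (U ++ V) = pts U ++ pts V := by simp [pts]
  rw [hp, List.nodup_append] at hn
  obtain ⟨l, hl⟩ := hS.ends q (hUV.subset (by simp [hq]))
  obtain ⟨l', hl'⟩ := hS.ends r (hUV.subset (by simp [hr]))
  refine hn.2.2 (P.pos q.1) (List.mem_flatMap.2 ⟨q, hq, by rw [hl]; simp⟩) (P.pos r.1)
    (List.mem_flatMap.2 ⟨r, hr, by rw [hl']; simp⟩) (by rw [he])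

lemma idx_lt {S : List (Fin (2 * h + 1) × List ℝ)} (hS : IsStar P.pos S)
    {U V : List (Fin (2 * h + 1) × List ℝ)}
    (hUV : (U ++ V).Sublist S) {ε : ℝ} (hε : Sepd ε (pts S)) (h0 : 0 < ε)
    {q r : Fin (2 * h + 1) × List ℝ} (hq : q ∈ U) (hr : r ∈ V) :
    (dbl ε (U ++ V)).idxOf (P.pos q.1 + ε) < (dbl ε (U ++ V)).idxOf (P.pos r.1 + ε) := by
  have hnd : (dbl ε (U ++ V)).Nodup :=
    dbl_nodup (hS.nodup.sublist (pts_sublist hUV))
      (hε.mono fun p hp => (pts_sublist hUV).subset hp) h0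
  rw [dbl_append] at hnd ⊢
  have hq' : P.pos q.1 + ε ∈ dbl ε U := by
    obtain ⟨l, hl⟩ := hS.ends q (hUV.subset (by simp [hq]))
    exact H177.tip_in hq hl ε
  have hr' : P.pos r.1 + ε ∈ dbl ε V := by
    obtain ⟨l, hl⟩ := hS.ends r (hUV.subset (by simp [hr]))
    exact H177.tip_in hr hl ε
  have hr2 : P.pos r.1 + ε ∉ dbl ε U := fun hh => (List.nodup_append.1 hnd).2.2 _ hh _ hr' rfl
  rw [List.idxOf_append_of_mem hq', List.idxOf_append_of_notMem hr2]
  have := List.idxOf_lt_length_of_mem hq'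
  omega

section

variable {S A B L : List (Fin (2 * h + 1) × List ℝ)} {a b c : Fin (2 * h + 1) × List ℝ} {ε : ℝ}

/-- the mark of `z` is before `x` -/
noncomputable def bz (P : OData h) (ε : ℝ) (Γ : List ℝ) (z : Fin (2 * h + 1)) (x : ℝ) : ℝ :=
  if Γ.idxOf (P.pos z + ε) < Γ.idxOf x then 1 else 0

/-- the phases of the hexagon -/
theorem phases (hS : IsStar P.pos S) (hε : Sepd ε (pts S)) (h0 : 0 < ε)
    {T : List (Fin (2 * h + 1) × List ℝ)} (hT : T.Sublist S)
    (ha : a.1 ∈ T.map Prod.fst) (hb : b.1 ∈ T.map Prod.fst) (hc : c.1 ∈ T.map Prod.fst)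
    (hab : a.1 ≠ b.1) (hac : a.1 ≠ c.1) (hbc : b.1 ≠ c.1) {EO : ℝ → ℝ}
    (hE : Crv (DK P (sh3 a.1 b.1 c.1 1 1 1) ε) false (dbl ε T) EO) {i j k : ℕ} (hi : i ≤ 2)
    (hj : j ≤ 2) (hk : k ≤ 2) (hs : i + j + k = 3) :
    ∃ F : ℝ → ℝ, Crv (DK P (sh3 a.1 b.1 c.1 i j k) ε) false (dbl ε T) F ∧
      (∀ x, (x ≠ P.pos a.1 + ε ∨ i = 1) → (x ≠ P.pos b.1 + ε ∨ j = 1) →
        (x ≠ P.pos c.1 + ε ∨ k = 1) → F x = EO x + (1 - (i : ℝ)) / 2 * bz P ε (dbl ε T) a.1 x +
          (1 - (j : ℝ)) / 2 * bz P ε (dbl ε T) b.1 x +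
          (1 - (k : ℝ)) / 2 * bz P ε (dbl ε T) c.1 x) := by
  classical
  have s1 : sh3 a.1 b.1 c.1 i j k a.1 = i := by unfold sh3; rw [if_pos rfl]
  have s2 : sh3 a.1 b.1 c.1 i j k b.1 = j := by
    unfold sh3; rw [if_neg (fun hh => hab hh.symm), if_pos rfl]
  have s3 : sh3 a.1 b.1 c.1 i j k c.1 = k := by
    unfold sh3
    rw [if_neg (fun hh => hac hh.symm), if_neg (fun hh => hbc hh.symm), if_pos rfl]
  have s4 : ∀ z, z ≠ a.1 → z ≠ b.1 → z ≠ c.1 → ∀ i j k, sh3 a.1 b.1 c.1 i j k z = 2 := by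
    intro z h1 h2 h3 i j k
    unfold sh3
    rw [if_neg h1, if_neg h2, if_neg h3]
  have t1 : sh3 a.1 b.1 c.1 1 1 1 a.1 = 1 := by unfold sh3; rw [if_pos rfl]
  have t2 : sh3 a.1 b.1 c.1 1 1 1 b.1 = 1 := by
    unfold sh3; rw [if_neg (fun hh => hab hh.symm), if_pos rfl]
  have t3 : sh3 a.1 b.1 c.1 1 1 1 c.1 = 1 := by
    unfold sh3
    rw [if_neg (fun hh => hac hh.symm), if_neg (fun hh => hbc hh.symm), if_pos rfl]
  have three : ∀ f : Fin (2 * h + 1) → ℝ, (∀ z, z ≠ a.1 → z ≠ b.1 → z ≠ c.1 → f z = 0) →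
      ∑ z, f z = f a.1 + f b.1 + f c.1 := by
    intro f hf
    rw [← H177.sum_three hab hac hbc f]
    symm
    apply Finset.sum_subset (Finset.subset_univ _)
    intro z _ hz
    simp only [Finset.mem_insert, Finset.mem_singleton, not_or] at hz
    exact hf z hz.1 hz.2.1 hz.2.2
  have hsum : ∑ z, ((sh3 a.1 b.1 c.1 1 1 1 z : ℝ) - sh3 a.1 b.1 c.1 i j k z) / 2 = 0 := by
    rw [three]
    · rw [s1, s2, s3, t1, t2, t3]
      have : (i : ℝ) + j + k = 3 := by exact_mod_cast hs
      push_cast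
      linarith
    · intro z h1 h2 h3
      rw [s4 z h1 h2 h3, s4 z h1 h2 h3]
      ring
  refine ⟨_, crv_dk hS hε h0 hT (κ' := sh3 a.1 b.1 c.1 i j k) ?_ hsum hE, ?_⟩
  · intro z hz
    by_cases h1 : z = a.1
    · subst h1
      rw [s1, t1] at *
      exact ⟨rfl, by omega, ha⟩
    by_cases h2 : z = b.1
    · subst h2
      rw [s2, t2] at *
      exact ⟨rfl, by omega, hb⟩
    by_cases h3 : z = c.1
    · subst h3
      rw [s3, t3] at *
      exact ⟨rfl, by omega, hc⟩
    exact absurd ((s4 z h1 h2 h3 1 1 1).trans (s4 z h1 h2 h3 i j k).symm) hz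
  · intro x x1 x2 x3
    rw [three]
    · rw [s1, s2, s3, t1, t2, t3]
      have key : ∀ (z : Fin (2 * h + 1)) (m : ℕ), (x ≠ P.pos z + ε ∨ m = 1) → ∀ q : Bool,
          (if bef (dbl ε T) (P.pos z + ε) q x then (((1 : ℕ) : ℝ) - (m : ℝ)) / 2 else 0) =
          (1 - (m : ℝ)) / 2 * bz P ε (dbl ε T) z x := by
        intro z m hm q
        unfold bef bz
        rcases hm with hm | hm
        · by_cases h4 : (dbl ε T).idxOf (P.pos z + ε) < (dbl ε T).idxOf x
          · rw [if_pos (Or.inl h4), if_pos h4]; push_cast; ring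
          · rw [if_neg (by rintro (h5 | h5); exacts [h4 h5, hm h5.1]), if_neg h4]; ring
        · subst hm
          simp
      rw [key a.1 i x1, key b.1 j x2, key c.1 k x3]
      ring
    · intro z h1 h2 h3
      rw [s4 z h1 h2 h3, s4 z h1 h2 h3]
      simp

/-- **The hexagon rule.** -/
theorem hexGeom_of (HX : HexVt) (P : OData h) : OTri.HexGeom P vminus := by
  classical
  intro S hS ε h0 hε a b c A B L hSe hlen
  set T : List (Fin (2 * h + 1) × List ℝ) := a :: (A ++ b :: (B ++ [c])) with hTdef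
  have hT : T.Sublist S := by
    have : S = T ++ L := by rw [hSe, hTdef]; simp
    rw [this]
    exact List.sublist_append_left _ _
  -- the three leaves are distinct
  have e1 : T = [a] ++ (A ++ b :: (B ++ [c])) := by rw [hTdef]; simp
  have e2 : T = (a :: A ++ [b]) ++ (B ++ [c]) := by rw [hTdef]; simp
  have hab : a.1 ≠ b.1 := arm_ne hS (e1 ▸ hT) (q := a) (r := b) (by simp) (by simp)
  have hac : a.1 ≠ c.1 := arm_ne hS (e1 ▸ hT) (q := a) (r := c) (by simp) (by simp)
  have hbc : b.1 ≠ c.1 := arm_ne hS (e2 ▸ hT) (q := b) (r := c) (by simp) (by simp)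
  have iab : (dbl ε T).idxOf (P.pos a.1 + ε) < (dbl ε T).idxOf (P.pos b.1 + ε) := by
    have := idx_lt hS (e1 ▸ hT) hε h0 (q := a) (r := b) (by simp) (by simp)
    rwa [← e1] at this
  have ibc : (dbl ε T).idxOf (P.pos b.1 + ε) < (dbl ε T).idxOf (P.pos c.1 + ε) := by
    have := idx_lt hS (e2 ▸ hT) hε h0 (q := b) (r := c) (by simp) (by simp)
    rwa [← e2] at this
  have haT : a ∈ T := by rw [hTdef]; simp
  have hbT : b ∈ T := by rw [hTdef]; simp
  have hcT : c ∈ T := by rw [hTdef]; simp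
  have ma : a.1 ∈ T.map Prod.fst := List.mem_map_of_mem haT
  have mb : b.1 ∈ T.map Prod.fst := List.mem_map_of_mem hbT
  have mc : c.1 ∈ T.map Prod.fst := List.mem_map_of_mem hcT
  -- shares
  have k2 : ∀ i j k : ℕ, ∀ q ∈ T, q.1 ≠ a.1 → q.1 ≠ b.1 → q.1 ≠ c.1 →
      sh3 a.1 b.1 c.1 i j k q.1 = 2 := by
    intro i j k q _ h1 h2 h3
    unfold sh3
    rw [if_neg h1, if_neg h2, if_neg h3]
  have ka : ∀ i j k : ℕ, sh3 a.1 b.1 c.1 i j k a.1 = i := by
    intro i j k; unfold sh3; rw [if_pos rfl]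
  have kb : ∀ i j k : ℕ, sh3 a.1 b.1 c.1 i j k b.1 = j := by
    intro i j k; unfold sh3; rw [if_neg (fun hh => hab hh.symm), if_pos rfl]
  have kc : ∀ i j k : ℕ, sh3 a.1 b.1 c.1 i j k c.1 = k := by
    intro i j k; unfold sh3
    rw [if_neg (fun hh => hac hh.symm), if_neg (fun hh => hbc hh.symm), if_pos rfl]
  have nA : ∀ q ∈ A, q.1 ≠ a.1 ∧ q.1 ≠ b.1 ∧ q.1 ≠ c.1 := by
    intro q hq
    refine ⟨?_, ?_, ?_⟩
    · exact fun hh => arm_ne hS (e1 ▸ hT) (q := a) (r := q) (by simp) (by simp [hq]) hh.symm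
    · have e3 : T = (a :: A) ++ (b :: (B ++ [c])) := by rw [hTdef]; simp
      exact arm_ne hS (e3 ▸ hT) (q := q) (r := b) (by simp [hq]) (by simp)
    · have e3 : T = (a :: A) ++ (b :: (B ++ [c])) := by rw [hTdef]; simp
      exact arm_ne hS (e3 ▸ hT) (q := q) (r := c) (by simp [hq]) (by simp)
  have nB : ∀ q ∈ B, q.1 ≠ a.1 ∧ q.1 ≠ b.1 ∧ q.1 ≠ c.1 := by
    intro q hq
    refine ⟨?_, ?_, ?_⟩
    · exact fun hh => arm_ne hS (e2 ▸ hT) (q := a) (r := q) (by simp) (by simp [hq]) hh.symm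
    · exact fun hh => arm_ne hS (e2 ▸ hT) (q := b) (r := q) (by simp) (by simp [hq]) hh.symm
    · have e3 : T = (a :: (A ++ b :: B)) ++ [c] := by rw [hTdef]; simp
      exact arm_ne hS (e3 ▸ hT) (q := q) (r := c) (by simp [hq]) (by simp)
  -- the centre
  have kle : ∀ z, sh3 a.1 b.1 c.1 1 1 1 z ≤ 2 := by
    intro z; unfold sh3; split_ifs <;> omega
  have hsum : (T.map fun q => (sh3 a.1 b.1 c.1 1 1 1 q.1 : ℝ) / 2).sum = h + 1 / 2 := by
    have sA : (A.map fun q => (sh3 a.1 b.1 c.1 1 1 1 q.1 : ℝ) / 2).sum = A.length := by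
      have : (A.map fun q => (sh3 a.1 b.1 c.1 1 1 1 q.1 : ℝ) / 2) = A.map fun _ => (1 : ℝ) := by
        apply List.map_congr_left
        intro q hq
        obtain ⟨h1, h2, h3⟩ := nA q hq
        rw [k2 1 1 1 q (by rw [hTdef]; simp [hq]) h1 h2 h3]
        norm_num
      rw [this]; simp
    have sB : (B.map fun q => (sh3 a.1 b.1 c.1 1 1 1 q.1 : ℝ) / 2).sum = B.length := by
      have : (B.map fun q => (sh3 a.1 b.1 c.1 1 1 1 q.1 : ℝ) / 2) = B.map fun _ => (1 : ℝ) := by
        apply List.map_congr_left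
        intro q hq
        obtain ⟨h1, h2, h3⟩ := nB q hq
        rw [k2 1 1 1 q (by rw [hTdef]; simp [hq]) h1 h2 h3]
        norm_num
      rw [this]; simp
    have hl : (A.length : ℝ) + B.length + 1 = h := by exact_mod_cast hlen
    rw [hTdef]
    simp only [List.map_cons, List.map_append, List.sum_cons, List.sum_append, List.map_nil,
      List.sum_nil, sA, sB, ka, kb, kc]
    push_cast
    linarith
  obtain ⟨EO, hEO⟩ := exists_EO hS hε h0 hT (by rw [hTdef]; simp) kle hsum
  -- the six phases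
  have ph := fun (i j k : ℕ) (hi : i ≤ 2) (hj : j ≤ 2) (hk : k ≤ 2) (hs : i + j + k = 3) =>
    phases (a := a) (b := b) (c := c) hS hε h0 hT ma mb mc hab hac hbc hEO hi hj hk hs
  obtain ⟨F021, hF021, v021⟩ := ph 0 2 1 (by norm_num) (by norm_num) (by norm_num) (by norm_num)
  obtain ⟨F201, hF201, v201⟩ := ph 2 0 1 (by norm_num) (by norm_num) (by norm_num) (by norm_num)
  obtain ⟨F102, hF102, v102⟩ := ph 1 0 2 (by norm_num) (by norm_num) (by norm_num) (by norm_num)
  obtain ⟨F120, hF120, v120⟩ := ph 1 2 0 (by norm_num) (by norm_num) (by norm_num) (by norm_num)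
  obtain ⟨F210, hF210, v210⟩ := ph 2 1 0 (by norm_num) (by norm_num) (by norm_num) (by norm_num)
  obtain ⟨F012, hF012, v012⟩ := ph 0 1 2 (by norm_num) (by norm_num) (by norm_num) (by norm_num)
  clear ph
  have rab : P.pos a.1 + ε ≠ P.pos b.1 + ε := by
    intro hh; exact hab (P.inj (by linarith))
  have rac : P.pos a.1 + ε ≠ P.pos c.1 + ε := by
    intro hh; exact hac (P.inj (by linarith))
  have rbc : P.pos b.1 + ε ≠ P.pos c.1 + ε := by
    intro hh; exact hbc (P.inj (by linarith))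
  -- the values at the points of the leaves
  have w1 : F021 (P.pos c.1 + ε) = EO (P.pos c.1 + ε) := by
    rw [v021 _ (Or.inl rac.symm) (Or.inl rbc.symm) (Or.inr rfl)]
    unfold bz
    rw [if_pos (by omega), if_pos ibc]; norm_num
  have w2 : F201 (P.pos c.1 + ε) = EO (P.pos c.1 + ε) := by
    rw [v201 _ (Or.inl rac.symm) (Or.inl rbc.symm) (Or.inr rfl)]
    unfold bz
    rw [if_pos (by omega), if_pos ibc]; norm_num
  have w3 : F102 (P.pos a.1 + ε) = EO (P.pos a.1 + ε) := by
    rw [v102 _ (Or.inr rfl) (Or.inl rab) (Or.inl rac)]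
    unfold bz
    rw [if_neg (by omega), if_neg (by omega), if_neg (by omega)]; norm_num
  have w4 : F120 (P.pos a.1 + ε) = EO (P.pos a.1 + ε) := by
    rw [v120 _ (Or.inr rfl) (Or.inl rab) (Or.inl rac)]
    unfold bz
    rw [if_neg (by omega), if_neg (by omega), if_neg (by omega)]; norm_num
  have w5 : F210 (P.pos b.1 + ε) = EO (P.pos b.1 + ε) - 1 / 2 := by
    rw [v210 _ (Or.inl rab.symm) (Or.inr rfl) (Or.inl rbc)]
    unfold bz
    rw [if_pos iab, if_neg (by omega), if_neg (by omega)]; norm_num; ring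
  have w6 : F012 (P.pos b.1 + ε) = EO (P.pos b.1 + ε) + 1 / 2 := by
    rw [v012 _ (Or.inl rab.symm) (Or.inr rfl) (Or.inl rbc)]
    unfold bz
    rw [if_pos iab, if_neg (by omega), if_neg (by omega)]; norm_num
  -- the fingers of weight zero are removed
  have sk1 := skip_DK (P := P) vminus (S₁ := []) (S₂ := A ++ b :: (B ++ [c])) (q := a) hS
    (by simpa [hTdef] using hT) hε h0 (ka 0 2 1) (by simp) (by simpa [hTdef] using hF021)
  have sk6 := skip_DK (P := P) vminus (S₁ := []) (S₂ := A ++ b :: (B ++ [c])) (q := a) hS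
    (by simpa [hTdef] using hT) hε h0 (ka 0 1 2) (by simp) (by simpa [hTdef] using hF012)
  have sk2 := skip_DK (P := P) vminus (S₁ := a :: A) (S₂ := B ++ [c]) (q := b) hS
    (by simpa [hTdef] using hT) hε h0 (kb 2 0 1) (by simp) (by simpa [hTdef] using hF201)
  have sk3 := skip_DK (P := P) vminus (S₁ := a :: A) (S₂ := B ++ [c]) (q := b) hS
    (by simpa [hTdef] using hT) hε h0 (kb 1 0 2) (by simp) (by simpa [hTdef] using hF102)
  have sk4 := skip_DK (P := P) vminus (S₁ := a :: (A ++ b :: B)) (S₂ := []) (q := c) hS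
    (by simpa [hTdef] using hT) hε h0 (kc 1 2 0) (by simp) (by simpa [hTdef] using hF120)
  have sk5 := skip_DK (P := P) vminus (S₁ := a :: (A ++ b :: B)) (S₂ := []) (q := c) hS
    (by simpa [hTdef] using hT) hε h0 (kc 2 1 0) (by simp) (by simpa [hTdef] using hF210)
  simp only [List.nil_append, List.append_nil, List.cons_append, List.append_assoc] at sk1 sk2 sk3 sk4 sk5 sk6
  have sub1 : (A ++ b :: (B ++ [c])).Sublist S := (List.sublist_cons_self a _).trans hT
  have sub2 : (a :: (A ++ (B ++ [c]))).Sublist S := by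
    refine List.Sublist.trans ?_ hT
    rw [hTdef]
    refine List.Sublist.cons_cons a ?_
    exact List.Sublist.append_left (List.sublist_cons_self _ _) _
  have sub3 : (a :: (A ++ b :: B)).Sublist S := by
    refine List.Sublist.trans ?_ hT
    rw [hTdef]
    refine List.Sublist.cons_cons a ?_
    refine List.Sublist.append_left ?_ _
    refine List.Sublist.cons_cons b ?_
    exact List.sublist_append_left _ _
  have kk : ∀ (i j k : ℕ) (q : Fin (2 * h + 1) × List ℝ), (q.1 = a.1 → i = 2) →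
      (q.1 = b.1 → j = 2) → (q.1 = c.1 → k = 2) → sh3 a.1 b.1 c.1 i j k q.1 = 2 := by
    intro i j k q h1 h2 h3
    unfold sh3
    split_ifs with g1 g2 g3
    · exact h1 g1
    · exact h2 g2
    · exact h3 g3
    · rfl
  refine ⟨F021, F201, F102, F120, F210, F012, ?_, ?_, ?_, ?_, ?_, ?_, ?_⟩
  · refine crv_DC hS sub1 hε h0 (kc 0 2 1) ?_ sk1.1
    intro q hq hne
    refine kk 0 2 1 q ?_ (fun _ => rfl) (fun hh => absurd hh hne)
    intro hh
    exact absurd hh.symm (arm_ne hS (e1 ▸ hT) (q := a) (r := q) (by simp) hq)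
  · refine crv_DC hS sub2 hε h0 (kc 2 0 1) ?_ sk2.1
    intro q hq hne
    refine kk 2 0 1 q (fun _ => rfl) ?_ (fun hh => absurd hh hne)
    intro hh
    rcases List.mem_cons.1 hq with rfl | hq
    · exact absurd hh hab
    · rcases List.mem_append.1 hq with hq | hq
      · exact absurd hh (nA q hq).2.1
      · rcases List.mem_append.1 hq with hq | hq
        · exact absurd hh (nB q hq).2.1
        · rw [List.mem_singleton] at hq; subst hq; exact absurd rfl hne
  · refine crv_DC hS sub2 hε h0 (ka 1 0 2) ?_ sk3.1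
    intro q hq hne
    refine kk 1 0 2 q (fun hh => absurd hh hne) ?_ (fun _ => rfl)
    intro hh
    rcases List.mem_cons.1 hq with rfl | hq
    · exact absurd rfl hne
    · rcases List.mem_append.1 hq with hq | hq
      · exact absurd hh (nA q hq).2.1
      · rcases List.mem_append.1 hq with hq | hq
        · exact absurd hh (nB q hq).2.1
        · rw [List.mem_singleton] at hq; subst hq; exact absurd hh.symm hbc
  · refine crv_DC hS sub3 hε h0 (ka 1 2 0) ?_ sk4.1
    intro q hq hne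
    refine kk 1 2 0 q (fun hh => absurd hh hne) (fun _ => rfl) ?_
    intro hh
    rcases List.mem_cons.1 hq with rfl | hq
    · exact absurd rfl hne
    · rcases List.mem_append.1 hq with hq | hq
      · exact absurd hh (nA q hq).2.2
      · rcases List.mem_cons.1 hq with rfl | hq
        · exact absurd hh hbc
        · exact absurd hh (nB q hq).2.2
  · refine crv_DC hS sub3 hε h0 (kb 2 1 0) ?_ sk5.1
    intro q hq hne
    refine kk 2 1 0 q (fun _ => rfl) (fun hh => absurd hh hne) ?_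
    intro hh
    rcases List.mem_cons.1 hq with rfl | hq
    · exact absurd hh hac
    · rcases List.mem_append.1 hq with hq | hq
      · exact absurd hh (nA q hq).2.2
      · rcases List.mem_cons.1 hq with rfl | hq
        · exact absurd rfl hne
        · exact absurd hh (nB q hq).2.2
  · refine crv_DC hS sub1 hε h0 (kb 0 1 2) ?_ sk6.1
    intro q hq hne
    refine kk 0 1 2 q ?_ (fun hh => absurd hh hne) (fun _ => rfl)
    intro hh
    exact absurd hh.symm (arm_ne hS (e1 ▸ hT) (q := a) (r := q) (by simp) hq)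
  · -- the sum
    unfold OTri.rvT
    have u1 : vminus.val false (dbl ε (A ++ b :: (B ++ [c]))) F021 =
        vminus.val false (dbl ε T) F021 := sk1.2
    have u2 : vminus.val false (dbl ε (a :: (A ++ (B ++ [c])))) F201 =
        vminus.val false (dbl ε T) F201 := sk2.2
    have u3 : vminus.val false (dbl ε (a :: (A ++ (B ++ [c])))) F102 =
        vminus.val false (dbl ε T) F102 := sk3.2
    have u4 : vminus.val false (dbl ε (a :: (A ++ b :: B))) F120 =
        vminus.val false (dbl ε T) F120 := sk4.2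
    have u5 : vminus.val false (dbl ε (a :: (A ++ b :: B))) F210 =
        vminus.val false (dbl ε T) F210 := sk5.2
    have u6 : vminus.val false (dbl ε (A ++ b :: (B ++ [c]))) F012 =
        vminus.val false (dbl ε T) F012 := sk6.2
    rw [u1, u2, u3, u4, u5, u6, w1, w2, w3, w4, w5, w6]
    have hg : (cfg false (dbl ε T)).Good := hEO.good
    have hcol : ColOK (fun x => !upc false (dbl ε T) x) (cfg false (dbl ε T)) :=
      ColOK.neg (colOK_upc hEO.cl false)
    -- the arcs
    have far : ∀ x ∈ (cfg false (dbl ε T)).S, (!upc false (dbl ε T) x) = true →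
        ∀ q ∈ T, x ≠ P.pos q.1 + ε := by
      intro x hx hcx q hq hh
      subst hh
      have h1 := (idx_leaf hS hε h0 hT (List.mem_map_of_mem (f := Prod.fst) hq)).2
      unfold upc pgk at hcx
      rw [h1] at hcx
      simp at hcx
    have hl : ∀ x ∈ (cfg false (dbl ε T)).S, (!upc false (dbl ε T) x) = true →
        (bz P ε (dbl ε T) a.1 x = 0 ∧ bz P ε (dbl ε T) b.1 x = 0 ∧ bz P ε (dbl ε T) c.1 x = 0 ∧
          - arc P ε T a.1 b.1 c.1 x = 0) ∨
        (bz P ε (dbl ε T) a.1 x = 1 ∧ bz P ε (dbl ε T) b.1 x = 0 ∧ bz P ε (dbl ε T) c.1 x = 0 ∧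
          - arc P ε T a.1 b.1 c.1 x = 2) ∨
        (bz P ε (dbl ε T) a.1 x = 1 ∧ bz P ε (dbl ε T) b.1 x = 1 ∧ bz P ε (dbl ε T) c.1 x = 0 ∧
          - arc P ε T a.1 b.1 c.1 x = 1) ∨
        (bz P ε (dbl ε T) a.1 x = 1 ∧ bz P ε (dbl ε T) b.1 x = 1 ∧ bz P ε (dbl ε T) c.1 x = 1 ∧
          - arc P ε T a.1 b.1 c.1 x = 0) := by
      intro x hx hcx
      have na := far x hx hcx a haT
      have nb := far x hx hcx b hbT
      have nc := far x hx hcx c hcT
      have pz : ∀ (z : Fin (2 * h + 1)) (q : Bool), x ≠ P.pos z + ε →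
          (psd P ε T q z x ↔ (dbl ε T).idxOf (P.pos z + ε) < (dbl ε T).idxOf x) := by
        intro z q hz
        unfold psd
        constructor
        · rintro (g | g)
          · exact g
          · exact absurd g.1 hz
        · exact Or.inl
      unfold arc bz
      rw [if_congr (pz a.1 _ na) rfl rfl, if_congr (pz b.1 _ nb) rfl rfl,
        if_congr (pz c.1 _ nc) rfl rfl]
      by_cases g1 : (dbl ε T).idxOf (P.pos a.1 + ε) < (dbl ε T).idxOf x
      · by_cases g2 : (dbl ε T).idxOf (P.pos b.1 + ε) < (dbl ε T).idxOf x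
        · by_cases g3 : (dbl ε T).idxOf (P.pos c.1 + ε) < (dbl ε T).idxOf x
          · rw [if_pos g1, if_pos g2, if_pos g3, if_pos g1, if_pos g2, if_pos g3]
            exact Or.inr (Or.inr (Or.inr ⟨rfl, rfl, rfl, by decide⟩))
          · rw [if_pos g1, if_pos g2, if_neg g3, if_pos g1, if_pos g2, if_neg g3]
            exact Or.inr (Or.inr (Or.inl ⟨rfl, rfl, rfl, by decide⟩))
        · have g3 : ¬ (dbl ε T).idxOf (P.pos c.1 + ε) < (dbl ε T).idxOf x := by omega
          rw [if_pos g1, if_neg g2, if_neg g3, if_pos g1, if_neg g2, if_neg g3]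
          exact Or.inr (Or.inl ⟨rfl, rfl, rfl, by decide⟩)
      · have g2 : ¬ (dbl ε T).idxOf (P.pos b.1 + ε) < (dbl ε T).idxOf x := by omega
        have g3 : ¬ (dbl ε T).idxOf (P.pos c.1 + ε) < (dbl ε T).idxOf x := by omega
        rw [if_neg g1, if_neg g2, if_neg g3, if_neg g1, if_neg g2, if_neg g3]
        exact Or.inl ⟨rfl, rfl, rfl, by decide⟩
    have law := H177.law_hex_down hS hT h0 hε haT hbT hcT hab hac hbc hEO
    -- values of the phases at the coloured points
    have z021 := fun x hx hcx => v021 x (Or.inl (far x hx hcx a haT)) (Or.inl (far x hx hcx b hbT))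
      (Or.inl (far x hx hcx c hcT))
    have z201 := fun x hx hcx => v201 x (Or.inl (far x hx hcx a haT)) (Or.inl (far x hx hcx b hbT))
      (Or.inl (far x hx hcx c hcT))
    have z102 := fun x hx hcx => v102 x (Or.inl (far x hx hcx a haT)) (Or.inl (far x hx hcx b hbT))
      (Or.inl (far x hx hcx c hcT))
    have z120 := fun x hx hcx => v120 x (Or.inl (far x hx hcx a haT)) (Or.inl (far x hx hcx b hbT))
      (Or.inl (far x hx hcx c hcT))
    have z210 := fun x hx hcx => v210 x (Or.inl (far x hx hcx a haT)) (Or.inl (far x hx hcx b hbT))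
      (Or.inl (far x hx hcx c hcT))
    have z012 := fun x hx hcx => v012 x (Or.inl (far x hx hcx a haT)) (Or.inl (far x hx hcx b hbT))
      (Or.inl (far x hx hcx c hcT))
    set V : (ℝ → ℝ) → ℝ := fun F => vminus.val false (dbl ε T) F with hV
    have hVt : ∀ F, V F = vt (fun x => !upc false (dbl ε T) x) (cfg false (dbl ε T)) F :=
      fun F => rfl
    have a1 : V (fun x => F210 x + 1 / 2) = V F210 + 1 / 2 := vminus.val_add hF210 (1 / 2)
    have a2 : V (fun x => F012 x + -(1 / 2)) = V F012 + -(1 / 2) :=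
      vminus.val_add hF012 (-(1 / 2))
    -- the hexagon
    have hx := HX (cfg false (dbl ε T)) (fun x => !upc false (dbl ε T) x) EO _ _ _ _ hg hcol
      hEO.valid law
      (fun i => if i = 0 then (fun x => F210 x + 1 / 2) else if i = 1 then F102 else F021)
      (fun i => if i = 0 then (fun x => F012 x + -(1 / 2)) else if i = 1 then F120 else F201)
      (by
        intro i
        split_ifs
        · exact ⟨_, (hF210.addE (1 / 2)).valid⟩
        · exact ⟨_, hF102.valid⟩
        · exact ⟨_, hF021.valid⟩)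
      (by
        intro i
        split_ifs
        · exact ⟨_, (hF012.addE (-(1 / 2))).valid⟩
        · exact ⟨_, hF120.valid⟩
        · exact ⟨_, hF201.valid⟩)
      (by
        intro i x hx hcx
        have hi : i = 0 ∨ i = 1 ∨ i = 2 := by revert i; decide
        have d01 : (0 : ZMod 3) ≠ 1 := by decide
        have d02 : (0 : ZMod 3) ≠ 2 := by decide
        have d12 : (1 : ZMod 3) ≠ 2 := by decide
        have y1 := z021 x hx hcx
        have y2 := z102 x hx hcx
        have y3 := z210 x hx hcx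
        rcases hl x hx hcx with ⟨g1, g2, g3, g4⟩ | ⟨g1, g2, g3, g4⟩ | ⟨g1, g2, g3, g4⟩ |
          ⟨g1, g2, g3, g4⟩ <;> rw [g1, g2, g3] at y1 y2 y3 <;> rw [g4] <;>
        rcases hi with rfl | rfl | rfl <;>
        simp only [d01, d02, d12, d01.symm, d02.symm, d12.symm, if_true, if_false] <;>
        (try rw [y1]) <;> (try rw [y2]) <;> (try rw [y3]) <;> push_cast <;> ring)
      (by
        intro i x hx hcx
        have hi : i = 0 ∨ i = 1 ∨ i = 2 := by revert i; decide
        have d01 : (0 : ZMod 3) ≠ 1 := by decide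
        have d02 : (0 : ZMod 3) ≠ 2 := by decide
        have d12 : (1 : ZMod 3) ≠ 2 := by decide
        have y1 := z201 x hx hcx
        have y2 := z120 x hx hcx
        have y3 := z012 x hx hcx
        rcases hl x hx hcx with ⟨g1, g2, g3, g4⟩ | ⟨g1, g2, g3, g4⟩ | ⟨g1, g2, g3, g4⟩ |
          ⟨g1, g2, g3, g4⟩ <;> rw [g1, g2, g3] at y1 y2 y3 <;> rw [g4] <;>
        rcases hi with rfl | rfl | rfl <;>
        simp only [d01, d02, d12, d01.symm, d02.symm, d12.symm, if_true, if_false] <;>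
        (try rw [y1]) <;> (try rw [y2]) <;> (try rw [y3]) <;> push_cast <;> ring)
    have hu : (Finset.univ : Finset (ZMod 3)) = {0, 1, 2} := by decide
    rw [hu, Finset.sum_insert (by decide), Finset.sum_insert (by decide),
      Finset.sum_singleton] at hx
    have d10 : (1 : ZMod 3) ≠ 0 := by decide
    have d20 : (2 : ZMod 3) ≠ 0 := by decide
    have d21 : (2 : ZMod 3) ≠ 1 := by decide
    simp only [d10, d20, d21, if_true, if_false, ← hVt, a1, a2] at hx
    -- monotonicity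
    have m1 : V F201 ≤ V F021 := by
      rw [hVt, hVt]
      refine H746.vt_mono_col hg hcol hF201.valid hF021.valid fun x hx hcx => ?_
      have y1 := z021 x hx hcx
      have y2 := z201 x hx hcx
      rcases hl x hx hcx with ⟨g1, g2, g3, g4⟩ | ⟨g1, g2, g3, g4⟩ | ⟨g1, g2, g3, g4⟩ |
          ⟨g1, g2, g3, g4⟩ <;> rw [g1, g2, g3] at y1 y2 <;> push_cast at y1 y2 <;> linarith
    have m2 : V F120 ≤ V F102 := by
      rw [hVt, hVt]
      refine H746.vt_mono_col hg hcol hF120.valid hF102.valid fun x hx hcx => ?_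
      have y1 := z102 x hx hcx
      have y2 := z120 x hx hcx
      rcases hl x hx hcx with ⟨g1, g2, g3, g4⟩ | ⟨g1, g2, g3, g4⟩ | ⟨g1, g2, g3, g4⟩ |
          ⟨g1, g2, g3, g4⟩ <;> rw [g1, g2, g3] at y1 y2 <;> push_cast at y1 y2 <;> linarith
    have m3 : V (fun x => F012 x + -(1 / 2)) ≤ V (fun x => F210 x + 1 / 2) := by
      rw [hVt, hVt]
      refine H746.vt_mono_col hg hcol (hF012.addE (-(1 / 2))).valid (hF210.addE (1 / 2)).valid
        fun x hx hcx => ?_
      have y1 := z210 x hx hcx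
      have y2 := z012 x hx hcx
      rcases hl x hx hcx with ⟨g1, g2, g3, g4⟩ | ⟨g1, g2, g3, g4⟩ | ⟨g1, g2, g3, g4⟩ |
          ⟨g1, g2, g3, g4⟩ <;> rw [g1, g2, g3] at y1 y2 <;> push_cast at y1 y2 <;> linarith
    rw [a1, a2] at m3
    rw [abs_of_nonneg (by linarith), abs_of_nonneg (by linarith), abs_of_nonneg (by linarith)]
    linarith

end

end Vale.Agent.P040.H908
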