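import Vale.Agent.P040.H105.Star

/-!
# Consistent functions `E` on paths and on doubled arms (helper908)

`E` is consistent along a path if its increment along each piece is the prescribed one: in the
upper page `MU b - MU a - B * sgn a b`, in the lower page `B * sgn a b - (ML b - ML a)`.
-/

set_option autoImplicit false

namespace Vale.Agent.P040.H908

open Pst

/-- the sign of `b - a` -/
noncomputable def sgn (a b : ℝ) : ℝ := if a < b then 1 else -1

lemma sgn_swap {a b : ℝ} (h : a ≠ b) : sgn b a = - sgn a b := by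
  unfold sgn
  rcases lt_or_gt_of_ne h with h' | h'
  · rw [if_pos h', if_neg (not_lt.2 h'.le)]
  · rw [if_neg (not_lt.2 h'.le), if_pos h']; norm_num

/-- the increment of `E` along the piece from `a` to `b` in the page `pg` -/
noncomputable def inc (B : ℝ) (MU ML : ℝ → ℝ) (pg : Bool) (a b : ℝ) : ℝ :=
  if pg then (MU b - MU a) - B * sgn a b else B * sgn a b - (ML b - ML a)

lemma inc_true (B : ℝ) (MU ML : ℝ → ℝ) (a b : ℝ) :
    inc B MU ML true a b = (MU b - MU a) - B * sgn a b := by simp [inc]

lemma inc_false (B : ℝ) (MU ML : ℝ → ℝ) (a b : ℝ) :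
    inc B MU ML false a b = B * sgn a b - (ML b - ML a) := by simp [inc]

lemma inc_swap {B : ℝ} {MU ML : ℝ → ℝ} {pg : Bool} {a b : ℝ} (h : a ≠ b) :
    inc B MU ML pg b a = - inc B MU ML pg a b := by
  cases pg
  · rw [inc_false, inc_false, sgn_swap h]; ring
  · rw [inc_true, inc_true, sgn_swap h]; ring

/-- `E` is consistent along the path `l` whose first piece is in the page `pg`. -/
def Cons (B : ℝ) (MU ML E : ℝ → ℝ) (pg : Bool) (l : List ℝ) : Prop :=
  ∀ c a b, (c, a, b) ∈ pcs pg l → E b - E a = inc B MU ML c a b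

section
variable {B : ℝ} {MU ML E : ℝ → ℝ} {pg : Bool} {l : List ℝ}

lemma cons_nil : Cons B MU ML E pg [] := by intro c a b h; simp at h

lemma cons_one (a : ℝ) : Cons B MU ML E pg [a] := by intro c x y h; simp at h

lemma cons_cons {a b : ℝ} {t : List ℝ} : Cons B MU ML E pg (a :: b :: t) ↔
    E b - E a = inc B MU ML pg a b ∧ Cons B MU ML E (!pg) (b :: t) := by
  constructor
  · intro h
    refine ⟨h pg a b (by simp [pcs_cons]), ?_⟩
    intro c x y hx
    exact h c x y (by rw [pcs_cons]; exact List.mem_cons_of_mem _ hx)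
  · rintro ⟨h1, h2⟩ c x y hx
    rw [pcs_cons] at hx
    rcases List.mem_cons.1 hx with hx | hx
    · simp only [Prod.mk.injEq] at hx
      obtain ⟨rfl, rfl, rfl⟩ := hx
      exact h1
    · exact h2 c x y hx

lemma cons_append {a b : ℝ} {l t : List ℝ} : Cons B MU ML E pg (l ++ b :: a :: t) ↔
    Cons B MU ML E pg (l ++ [b]) ∧ E a - E b = inc B MU ML (fl l.length pg) b a ∧
      Cons B MU ML E (fl (l.length + 1) pg) (a :: t) := by
  unfold Cons
  rw [pcs_append]
  constructor
  · intro h
    refine ⟨fun c x y hx => h c x y (by simp [hx]), h _ _ _ (by simp),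
      fun c x y hx => h c x y (by simp [hx])⟩
  · rintro ⟨h1, h2, h3⟩ c x y hx
    simp only [List.mem_append, List.mem_cons] at hx
    rcases hx with hx | hx | hx
    · exact h1 c x y hx
    · simp only [Prod.mk.injEq] at hx
      obtain ⟨rfl, rfl, rfl⟩ := hx
      exact h2
    · exact h3 c x y hx

/-- linearity -/
lemma Cons.sub {B' : ℝ} {MU' ML' E' : ℝ → ℝ} (h : Cons B MU ML E pg l)
    (h' : Cons B' MU' ML' E' pg l) :
    Cons (B - B') (fun x => MU x - MU' x) (fun x => ML x - ML' x) (fun x => E x - E' x) pg l := by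
  intro c a b hx
  have e1 := h c a b hx
  have e2 := h' c a b hx
  cases c
  · rw [inc_false] at *
    linear_combination e1 - e2
  · rw [inc_true] at *
    linear_combination e1 - e2

lemma Cons.add_const (h : Cons B MU ML E pg l) (s : ℝ) :
    Cons B MU ML (fun x => E x + s) pg l := by
  intro c a b hx
  have e1 := h c a b hx
  linear_combination e1

/-- A consistent function exists on every simple path. -/
lemma exists_cons_path (B : ℝ) (MU ML : ℝ → ℝ) {l : List ℝ} (hl : l.Nodup) (pg : Bool) :
    ∃ E : ℝ → ℝ, Cons B MU ML E pg l := by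
  induction l generalizing pg with
  | nil => exact ⟨fun _ => 0, cons_nil⟩
  | cons a t ih =>
    cases t with
    | nil => exact ⟨fun _ => 0, cons_one a⟩
    | cons b t =>
      have hn := (List.nodup_cons.1 hl)
      obtain ⟨E, hE⟩ := ih hn.2 (!pg)
      classical
      refine ⟨Function.update E a (E b - inc B MU ML pg a b), ?_⟩
      rw [cons_cons]
      have hab : b ≠ a := fun h => hn.1 (h ▸ List.mem_cons_self)
      constructor
      · rw [Function.update_self, Function.update_of_ne hab]
        ring
      · intro c x y hx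
        obtain ⟨m1, m2⟩ := mem_of_pcs hx
        have hxa : x ≠ a := fun h => hn.1 (h ▸ m1)
        have hya : y ≠ a := fun h => hn.1 (h ▸ m2)
        rw [Function.update_of_ne hxa, Function.update_of_ne hya]
        exact hE c x y hx

end

/-- the page dependent potential -/
noncomputable def Ph (MU ML E : ℝ → ℝ) (pg : Bool) (x : ℝ) : ℝ :=
  if pg then E x - MU x else E x + ML x

/-- the sign of the page -/
def ks (pg : Bool) : ℝ := if pg then 1 else -1

lemma ph_step {B : ℝ} {MU ML E : ℝ → ℝ} {pg : Bool} {a b : ℝ}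
    (h : E b - E a = inc B MU ML pg a b) :
    Ph MU ML E pg b - Ph MU ML E pg a = - (ks pg * B * sgn a b) := by
  cases pg
  · rw [inc_false] at h
    simp only [Ph, ks, Bool.false_eq_true, if_false]
    linear_combination h
  · rw [inc_true] at h
    simp only [Ph, ks, if_true]
    linear_combination h

/-- the doubled arm -/
def dd (δ : ℝ) (l : List ℝ) : List ℝ := sh δ l ++ (sh (-δ) l).reverse

lemma dd_cons (δ a : ℝ) (t : List ℝ) : dd δ (a :: t) = (a + δ) :: (dd (-δ) t ++ [a - δ]) := by
  unfold dd
  simp only [sh_cons, List.reverse_cons, neg_neg, List.cons_append, List.append_assoc]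
  rw [sub_eq_add_neg]

lemma dd_length (δ : ℝ) (l : List ℝ) : (dd δ l).length = 2 * l.length := by
  unfold dd
  simp only [List.length_append, List.length_reverse, sh_length]
  ring

lemma fl_two_mul (n : ℕ) (b : Bool) : fl (2 * n) b = b := by
  rw [two_mul, fl_add, fl_fl]

lemma dd_head {δ a : ℝ} {t : List ℝ} : (dd δ (a :: t)).headI = a + δ := by
  rw [dd_cons]; rfl

/-- the last point of a doubled arm -/
lemma dd_eq {δ a : ℝ} {t : List ℝ} : ∃ m, dd δ (a :: t) = (a + δ) :: m ++ [a - δ] := by
  refine ⟨dd (-δ) t, ?_⟩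
  rw [dd_cons, List.cons_append]

end Vale.Agent.P040.H908
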