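import Vale.Agent.P040.H908.Inc

/-!
# The increment of `E` along a doubled arm (helper908)
-/

set_option autoImplicit false

namespace Vale.Agent.P040.H908

open Pst

/-- page and side of the first copy -/
def Dir (ε : ℝ) (pg : Bool) (δ : ℝ) : Prop := (pg = false ∧ δ = -ε) ∨ (pg = true ∧ δ = ε)

lemma Dir.not {ε δ : ℝ} {pg : Bool} (h : Dir ε pg δ) : Dir ε (!pg) (-δ) := by
  rcases h with ⟨rfl, rfl⟩ | ⟨rfl, rfl⟩
  · right; simp
  · left; simp

lemma Dir.abs {ε δ : ℝ} {pg : Bool} (hε : 0 < ε) (h : Dir ε pg δ) : |δ| = ε := by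
  rcases h with ⟨rfl, rfl⟩ | ⟨rfl, rfl⟩
  · rw [abs_neg, abs_of_pos hε]
  · rw [abs_of_pos hε]

/-- data of an arm: `z` is the last point, the mass functions do not change at the other points -/
structure Dat (ε : ℝ) (MU ML : ℝ → ℝ) (l : List ℝ) (z : ℝ) : Prop where
  last : l.getLast? = some z
  nodup : l.Nodup
  sep : Sepd ε l
  U : ∀ p ∈ l.dropLast, MU (p - ε) = MU (p + ε)
  L : ∀ p ∈ l.dropLast, ML (p - ε) = ML (p + ε)

lemma Dat.tail {ε : ℝ} {MU ML : ℝ → ℝ} {a b : ℝ} {t : List ℝ} {z : ℝ}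
    (h : Dat ε MU ML (a :: b :: t) z) : Dat ε MU ML (b :: t) z where
  last := by simpa using h.last
  nodup := (List.nodup_cons.1 h.nodup).2
  sep := h.sep.mono fun p hp => List.mem_cons_of_mem _ hp
  U := fun p hp => h.U p (by rw [List.dropLast_cons_cons]; exact List.mem_cons_of_mem _ hp)
  L := fun p hp => h.L p (by rw [List.dropLast_cons_cons]; exact List.mem_cons_of_mem _ hp)

/-- shift by `δ` for a point where nothing changes -/
lemma eq_shift {ε δ : ℝ} {pg : Bool} (h : Dir ε pg δ) {M : ℝ → ℝ} {p : ℝ}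
    (hp : M (p - ε) = M (p + ε)) : M (p - δ) = M (p + δ) := by
  rcases h with ⟨rfl, rfl⟩ | ⟨rfl, rfl⟩
  · rw [sub_neg_eq_add, ← sub_eq_add_neg]; exact hp.symm
  · exact hp

lemma dd_cons₂ (δ a b : ℝ) (t : List ℝ) :
    dd δ (a :: b :: t) = (a + δ) :: (b - δ) :: (dd δ t ++ [b + δ] ++ [a - δ]) := by
  rw [dd_cons, dd_cons, neg_neg, sub_neg_eq_add, ← sub_eq_add_neg, List.cons_append]

lemma dd_neg_cons (δ b : ℝ) (t : List ℝ) : dd (-δ) (b :: t) = (b - δ) :: (dd δ t ++ [b + δ]) := by
  rw [dd_cons, neg_neg, sub_neg_eq_add, ← sub_eq_add_neg]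

/-- the three parts of consistency along a doubled arm -/
lemma cons_dd₂ {B : ℝ} {MU ML E : ℝ → ℝ} {pg : Bool} {δ a b : ℝ} {t : List ℝ} :
    Cons B MU ML E pg (dd δ (a :: b :: t)) ↔
      E (b - δ) - E (a + δ) = inc B MU ML pg (a + δ) (b - δ) ∧
      Cons B MU ML E (!pg) (dd (-δ) (b :: t)) ∧
      E (a - δ) - E (b + δ) = inc B MU ML pg (b + δ) (a - δ) := by
  rw [dd_cons₂, cons_cons]
  have e : (b - δ) :: (dd δ t ++ [b + δ] ++ [a - δ]) =
      ((b - δ) :: dd δ t) ++ (b + δ) :: (a - δ) :: [] := by simp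
  rw [e, cons_append, dd_neg_cons]
  have hl : fl ((b - δ) :: dd δ t).length (!pg) = pg := by
    rw [List.length_cons, dd_length, fl_succ, fl_two_mul, Bool.not_not]
  rw [hl, List.cons_append]
  constructor
  · rintro ⟨h1, h2, h3, -⟩
    exact ⟨h1, h2, h3⟩
  · rintro ⟨h1, h2, h3⟩
    exact ⟨h1, h2, h3, cons_one _⟩

lemma sgn_shift {ε : ℝ} {l : List ℝ} (hs : Sepd ε l) {a b σ τ : ℝ} (ha : a ∈ l) (hb : b ∈ l)
    (hne : a ≠ b) (hσ : |σ| ≤ ε) (hτ : |τ| ≤ ε) : sgn (a + σ) (b + τ) = sgn a b := by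
  unfold sgn
  rw [if_congr (hs.lt_iff ha hb hne hσ hτ) rfl rfl]

/-- The increment along a doubled arm. -/
theorem darm {B ε : ℝ} (hε : 0 < ε) {MU ML E : ℝ → ℝ} {z : ℝ} (l : List ℝ) : ∀ {pg : Bool} {δ : ℝ},
    Dir ε pg δ → Dat ε MU ML l z → Cons B MU ML E pg (dd δ l) →
    Ph MU ML E (!pg) (l.headI - δ) - Ph MU ML E (!pg) (l.headI + δ) =
      B - ((MU (z + ε) - MU (z - ε)) + (ML (z + ε) - ML (z - ε))) := by
  induction l with
  | nil => intro pg δ _ h; exact absurd h.last (by simp)
  | cons a t ih =>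
    intro pg δ hd hD hC
    cases t with
    | nil =>
      have hz : a = z := by simpa using hD.last
      subst hz
      have h1 : E (a - δ) - E (a + δ) = inc B MU ML pg (a + δ) (a - δ) := by
        have : dd δ [a] = [a + δ, a - δ] := by rw [dd_cons]; rfl
        rw [this, cons_cons] at hC
        exact hC.1
      simp only [List.headI_cons]
      rcases hd with ⟨rfl, rfl⟩ | ⟨rfl, rfl⟩
      · rw [inc_false] at h1
        have hs : sgn (a + -ε) (a - -ε) = 1 := by
          unfold sgn; rw [if_pos (by linarith)]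
        rw [hs] at h1
        simp only [Ph, Bool.not_false, if_true]
        rw [sub_neg_eq_add, ← sub_eq_add_neg] at *
        linear_combination h1
      · rw [inc_true] at h1
        have hs : sgn (a + δ) (a - δ) = -1 := by
          unfold sgn; rw [if_neg (by linarith)]
        rw [hs] at h1
        simp only [Ph, Bool.not_true, Bool.false_eq_true, if_false]
        linear_combination h1
    | cons b t =>
      rw [cons_dd₂] at hC
      obtain ⟨h1, h2, h3⟩ := hC
      have ihh := ih hd.not hD.tail h2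
      simp only [Bool.not_not, List.headI_cons, sub_neg_eq_add] at ihh
      rw [← sub_eq_add_neg] at ihh
      have p1 := ph_step h1
      have p3 := ph_step h3
      have hab : a ≠ b := by
        intro h
        have := (List.nodup_cons.1 hD.nodup).1
        rw [h] at this
        exact this (by simp)
      have hδ : |δ| ≤ ε := (hd.abs hε).le
      have hδ' : |-δ| ≤ ε := by rw [abs_neg]; exact hδ
      have s1 : sgn (a + δ) (b - δ) = sgn a b := by
        rw [sub_eq_add_neg]
        exact sgn_shift hD.sep (by simp) (by simp) hab hδ hδ'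
      have s3 : sgn (b + δ) (a - δ) = - sgn a b := by
        rw [sub_eq_add_neg, sgn_shift hD.sep (by simp) (by simp) hab.symm hδ hδ', sgn_swap hab]
      rw [s1] at p1
      rw [s3] at p3
      have eU := eq_shift hd (hD.U a (by simp))
      have eL := eq_shift hd (hD.L a (by simp))
      have conv : ∀ c : Bool, Ph MU ML E c (a - δ) - Ph MU ML E c (a + δ) =
          E (a - δ) - E (a + δ) := by
        intro c
        cases c
        · simp only [Ph, Bool.false_eq_true, if_false]; linear_combination eL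
        · simp only [Ph, if_true]; linear_combination -eU
      simp only [List.headI_cons]
      rw [conv, ← conv pg]
      linear_combination p1 + p3 + ihh

end Vale.Agent.P040.H908
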