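import Vale.Agent.P040.H870.Hex
import Vale.Agent.P040.H908.HexG

/-!
# The cut of the spine at an arbitrary place (helper908)
-/

set_option autoImplicit false

namespace Vale.Agent.P040.H908

open P040H251 Vale.Agent.P040.H906 H870

/-- rotation of the line: the points to the left of the cut are moved to the right -/
noncomputable def ro (K : ℝ) (wl : ℝ → Bool) (x : ℝ) : ℝ := if wl x = true then x + 2 * K else x

/-- the inverse -/
noncomputable def ri (K : ℝ) (y : ℝ) : ℝ := if K ≤ y then y - 2 * K else y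

lemma ri_ro {K : ℝ} {wl : ℝ → Bool} {x : ℝ} (h : |x| < K) : ri K (ro K wl x) = x := by
  obtain ⟨h1, h2⟩ := abs_lt.1 h
  unfold ri ro
  by_cases hw : wl x = true
  · rw [if_pos hw, if_pos (by linarith)]; ring
  · rw [if_neg hw, if_neg (by linarith)]

lemma ro_lt {K : ℝ} {wl : ℝ → Bool} {x y : ℝ} (hx : |x| < K) (hy : |y| < K) :
    ro K wl x < ro K wl y ↔ (wl x = wl y ∧ x < y) ∨ (wl x = false ∧ wl y = true) := by
  obtain ⟨h1, h2⟩ := abs_lt.1 hx
  obtain ⟨h3, h4⟩ := abs_lt.1 hy
  unfold ro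
  cases hwx : wl x <;> cases hwy : wl y <;> simp <;> linarith

lemma lt_cut {wl : ℝ → Bool} (hc : ∀ x y, x ≤ y → wl y = true → wl x = true) {x y : ℝ} :
    x < y ↔ (wl x = wl y ∧ x < y) ∨ (wl x = true ∧ wl y = false) := by
  constructor
  · intro h
    cases hwx : wl x <;> cases hwy : wl y
    · exact Or.inl ⟨rfl, h⟩
    · have := hc x y h.le hwy
      rw [hwx] at this
      exact absurd this (by simp)
    · exact Or.inr ⟨rfl, rfl⟩
    · exact Or.inl ⟨rfl, h⟩
  · rintro (h | ⟨h1, h2⟩)
    · exact h.2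
    · by_contra hh
      have := hc y x (not_lt.1 hh) h1
      rw [h2] at this
      exact absurd this (by simp)

lemma cyc_ro {K : ℝ} {wl : ℝ → Bool} (hc : ∀ x y, x ≤ y → wl y = true → wl x = true)
    {x y z : ℝ} (hx : |x| < K) (hy : |y| < K) (hz : |z| < K) :
    H906.Cyc x y z ↔ H906.Cyc (ro K wl x) (ro K wl y) (ro K wl z) := by
  unfold H906.Cyc
  rw [ro_lt hx hy, ro_lt hy hz, ro_lt hz hx, lt_cut hc (x := x) (y := y),
    lt_cut hc (x := y) (y := z), lt_cut hc (x := z) (y := x)]
  cases wl x <;> cases wl y <;> cases wl z <;> simp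

lemma wn_add (wl : ℝ → Bool) {x y : ℝ} (h : x ≠ y) : H568.wn wl x y + H568.wn wl y x = 1 := by
  unfold H568.wn
  rcases lt_or_gt_of_ne h with h1 | h1
  · rw [if_pos h1, if_neg (not_lt.2 h1.le)]
    split_ifs <;> rfl
  · rw [if_neg (not_lt.2 h1.le), if_pos h1]
    split_ifs <;> rfl

lemma wr_ro {K : ℝ} {wl : ℝ → Bool} (hc : ∀ x y, x ≤ y → wl y = true → wl x = true)
    {x y : ℝ} (hx : |x| < K) (hy : |y| < K) (h : x ≠ y) :
    wr (ro K wl x) (ro K wl y) = (H568.wn wl x y : ℤ) := by
  unfold wr H568.wn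
  rcases lt_or_gt_of_ne h with h1 | h1
  · have h2 : ¬ y < x := not_lt.2 h1.le
    rw [if_pos h1]
    by_cases h3 : wl x = true ∧ wl y = false
    · rw [if_pos h3, if_pos ((ro_lt hy hx).2 (Or.inr ⟨h3.2, h3.1⟩))]; rfl
    · rw [if_neg h3, if_neg]
      · rfl
      · intro hh
        rcases (ro_lt hy hx).1 hh with h4 | h4
        · exact h2 h4.2
        · exact h3 ⟨h4.2, h4.1⟩
  · rw [if_neg (not_lt.2 h1.le)]
    by_cases h3 : wl y = true ∧ wl x = false
    · rw [if_pos h3, if_neg]
      · rfl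
      · intro hh
        rcases (ro_lt hy hx).1 hh with h4 | h4
        · rw [h3.1, h3.2] at h4; exact absurd h4.1 (by simp)
        · rw [h3.1] at h4; exact absurd h4.1 (by simp)
    · rw [if_neg h3, if_pos]
      · rfl
      · rw [ro_lt hy hx]
        cases hwx : wl x <;> cases hwy : wl y
        · exact Or.inl ⟨rfl, h1⟩
        · exact absurd ⟨hwy, hwx⟩ h3
        · exact Or.inr ⟨rfl, rfl⟩
        · exact Or.inl ⟨rfl, h1⟩

section

variable {c : Cfg ℝ} {K : ℝ} {wl : ℝ → Bool}

/-- the rotated configuration -/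
noncomputable def rc (c : Cfg ℝ) (K : ℝ) (wl : ℝ → Bool) : Cfg ℝ where
  S := c.S.image (ro K wl)
  f := fun b y => ro K wl (c.f b (ri K y))

lemma rc_iso (hg : c.Good) (hc : ∀ x y, x ≤ y → wl y = true → wl x = true)
    (hK : ∀ x ∈ c.S, |x| < K) : Iso (ro K wl) c (rc c K wl) where
  map := fun x hx => Finset.mem_image_of_mem _ hx
  surj := fun y hy => by
    obtain ⟨x, hx, h⟩ := Finset.mem_image.1 hy
    exact ⟨x, hx, h⟩
  inj := fun x hx y hy h => by
    rw [← ri_ro (wl := wl) (hK x hx), h, ri_ro (hK y hy)]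
  comm := fun b x hx => by
    show _ = ro K wl (c.f b (ri K (ro K wl x)))
    rw [ri_ro (hK x hx)]
  cyc := fun x hx y hy z hz => cyc_ro hc (hK x hx) (hK y hy) (hK z hz)

lemma rc_good (hg : c.Good) (hc : ∀ x y, x ≤ y → wl y = true → wl x = true)
    (hK : ∀ x ∈ c.S, |x| < K) : (rc c K wl).Good := by
  classical
  have hi := rc_iso hg hc hK
  refine ⟨?_, ?_, ?_, ?_, ?_, ?_⟩
  · intro b y hy
    obtain ⟨x, hx, rfl⟩ := hi.surj y hy
    rw [← hi.comm b x hx]
    exact hi.map _ (hg.mem b x hx)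
  · intro b y hy
    obtain ⟨x, hx, rfl⟩ := hi.surj y hy
    rw [← hi.comm b x hx, ← hi.comm b _ (hg.mem b x hx), hg.inv b x hx]
  · intro b y hy
    obtain ⟨x, hx, rfl⟩ := hi.surj y hy
    rw [← hi.comm b x hx]
    exact fun hh => hg.ne b x hx (hi.inj _ (hg.mem b x hx) _ hx hh)
  · intro b y hy z hz
    obtain ⟨x, hx, rfl⟩ := hi.surj y hy
    obtain ⟨u, hu, rfl⟩ := hi.surj z hz
    rw [← hi.comm b x hx, ← hi.comm b u hu, ← hi.cyc x hx u hu _ (hg.mem b x hx),
      ← hi.cyc x hx _ (hg.mem b u hu) _ (hg.mem b x hx)]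
    exact hg.nc b x hx u hu
  · intro A hA hne hcl
    have h1 : c.S.filter (fun x => ro K wl x ∈ A) = c.S := by
      refine hg.conn _ (Finset.filter_subset _ _) ?_ ?_
      · obtain ⟨y, hy⟩ := hne
        obtain ⟨x, hx, rfl⟩ := hi.surj y (hA hy)
        exact ⟨x, Finset.mem_filter.2 ⟨hx, hy⟩⟩
      · intro b x hx
        rw [Finset.mem_filter] at hx ⊢
        refine ⟨hg.mem b x hx.1, ?_⟩
        rw [hi.comm b x hx.1]
        exact hcl b _ hx.2
    refine Finset.Subset.antisymm hA ?_
    intro y hy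
    obtain ⟨x, hx, rfl⟩ := hi.surj y hy
    rw [← h1] at hx
    exact (Finset.mem_filter.1 hx).2
  · obtain ⟨x, hx⟩ := hg.nonem
    exact ⟨_, hi.map x hx⟩

end

/-- the sum of the marks over all points -/
lemma tot_all {c : Cfg ℝ} {col : ℝ → Bool} (hg : c.Good) (hcol : ColOK col c)
    {lam : Bool → ℝ → ℕ} (hs : ∀ b, ∀ x ∈ c.S, lam b (c.f b x) = lam b x)
    (ht : ∑ x ∈ c.S.filter (fun x => col x = true), (lam true x + lam false x) ≤ 3) :
    ∑ x ∈ c.S, (lam true x + lam false x) ≤ 6 := by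
  classical
  have key : ∀ b, ∑ x ∈ c.S.filter (fun x => ¬ col x = true), lam b x =
      ∑ x ∈ c.S.filter (fun x => col x = true), lam b x := by
    intro b
    refine Finset.sum_nbij' (fun x => c.f b x) (fun x => c.f b x) ?_ ?_ ?_ ?_ ?_
    · intro x hx
      rw [Finset.mem_filter] at hx ⊢
      refine ⟨hg.mem b x hx.1, ?_⟩
      rw [hcol b x hx.1]
      cases h : col x
      · rfl
      · exact absurd h hx.2
    · intro x hx
      rw [Finset.mem_filter] at hx ⊢
      refine ⟨hg.mem b x hx.1, ?_⟩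
      rw [hcol b x hx.1, hx.2]
      simp
    · intro x hx; exact hg.inv b x (Finset.mem_filter.1 hx).1
    · intro x hx; exact hg.inv b x (Finset.mem_filter.1 hx).1
    · intro x hx; exact (hs b x (Finset.mem_filter.1 hx).1).symm
  rw [← Finset.sum_filter_add_sum_filter_not c.S (fun x => col x = true)]
  rw [Finset.sum_add_distrib (s := c.S.filter (fun x => ¬ col x = true)), key, key,
    ← Finset.sum_add_distrib]
  omega

/-- **(S)** The hexagon inequality in the form with a cut. -/
theorem hexVt : HexVt := by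
  classical
  intro c col E₀ M₀ lam lab wl hg hcol hv law Ep Em hp hm hpE hmE
  obtain ⟨x0, hx0⟩ := hg.nonem
  obtain ⟨K', hK'⟩ := (c.S.image fun x => |x|).exists_le
  set K := K' + 1 with hKdef
  have hK : ∀ x ∈ c.S, |x| < K := by
    intro x hx
    have := hK' _ (Finset.mem_image_of_mem (fun x => |x|) hx)
    linarith
  have hi := rc_iso (wl := wl) hg law.cut hK
  have hg' := rc_good (wl := wl) hg law.cut hK
  -- the parity of the mass
  obtain ⟨H, hH, hH4⟩ : ∃ H : ℤ, Odd H ∧ (H : ℝ) = 4 * M₀ := by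
    obtain ⟨n, hn⟩ := law.par true x0 hx0
    obtain ⟨n', hn'⟩ := law.par true _ (hg.mem true x0 hx0)
    have h1 : c.dl E₀ true (c.f true x0) = - c.dl E₀ true x0 := by
      unfold Cfg.dl
      rw [hg.inv true x0 hx0]; ring
    rw [hg.inv true x0 hx0, h1, law.sym true x0 hx0] at hn'
    have h2 := wn_add wl (hg.ne true x0 hx0).symm
    have h3 : (H568.wn wl x0 (c.f true x0) : ℝ) + (H568.wn wl (c.f true x0) x0 : ℝ) = 1 := by
      exact_mod_cast h2
    refine ⟨2 * (lam true x0 + n + n') + 1, ⟨_, rfl⟩, ?_⟩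
    push_cast
    linarith
  have hint : ∀ x ∈ c.S, ∃ n : ℤ, 4 * (E₀ x - E₀ x0) = n := by
    have h1 : c.S.filter (fun x => ∃ n : ℤ, 4 * (E₀ x - E₀ x0) = n) = c.S := by
      refine hg.conn _ (Finset.filter_subset _ _) ⟨x0, ?_⟩ ?_
      · rw [Finset.mem_filter]
        exact ⟨hx0, 0, by simp⟩
      · intro b x hx
        rw [Finset.mem_filter] at hx ⊢
        refine ⟨hg.mem b x hx.1, ?_⟩
        obtain ⟨n, hn⟩ := hx.2
        obtain ⟨m, hm⟩ := law.par b x hx.1
        unfold Cfg.dl at hm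
        cases b
        · have e : H906.sg false = -1 := by simp [H906.sg]
          rw [e] at hm
          refine ⟨n - (2 * lam false x + 2 * H568.wn wl x (c.f false x) + 4 * m) + H, ?_⟩
          push_cast
          rw [hH4]
          linarith
        · have e : H906.sg true = 1 := by simp [H906.sg]
          rw [e] at hm
          refine ⟨n + (2 * lam true x + 2 * H568.wn wl x (c.f true x) + 4 * m) - H, ?_⟩
          push_cast
          rw [hH4]
          linarith
    intro x hx
    rw [← h1] at hx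
    exact (Finset.mem_filter.1 hx).2
  have hround : ∀ x ∈ c.S, ((round (4 * (E₀ x - E₀ x0)) : ℤ) : ℝ) = 4 * (E₀ x - E₀ x0) := by
    intro x hx
    obtain ⟨n, hn⟩ := hint x hx
    rw [hn, round_intCast]
  set e : ℝ → ℤ := fun x => round (4 * (E₀ x - E₀ x0)) with he
  have hri : ∀ x ∈ c.S, ri K (ro K wl x) = x := fun x hx => ri_ro (hK x hx)
  have hmk : Mk (rc c K wl) (fun y => col (ri K y)) (fun y => e (ri K y)) H
      (fun b y => lam b (ri K y)) (fun y => lab (ri K y)) := by
    refine ⟨?_, ?_, ?_, ?_⟩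
    · intro b y hy
      obtain ⟨x, hx, rfl⟩ := hi.surj y hy
      show lam b (ri K ((rc c K wl).f b (ro K wl x))) = lam b (ri K (ro K wl x))
      rw [← hi.comm b x hx, hri x hx, hri _ (hg.mem b x hx)]
      exact law.sym b x hx
    · intro b y hy
      obtain ⟨x, hx, rfl⟩ := hi.surj y hy
      have hfx := hg.mem b x hx
      show (4 : ℤ) ∣ H + sz b * (e (ri K ((rc c K wl).f b (ro K wl x))) - e (ri K (ro K wl x))) -
        2 * (wr (ro K wl x) ((rc c K wl).f b (ro K wl x)) + (lam b (ri K (ro K wl x)) : ℕ))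
      rw [← hi.comm b x hx, hri x hx, hri _ hfx, wr_ro law.cut (hK x hx) (hK _ hfx)
        (hg.ne b x hx).symm]
      obtain ⟨n, hn⟩ := law.par b x hx
      refine ⟨n, ?_⟩
      have h1 := hround x hx
      have h2 := hround _ hfx
      unfold Cfg.dl at hn
      have h3 : ((H + sz b * (e (c.f b x) - e x) -
          2 * ((H568.wn wl x (c.f b x) : ℤ) + (lam b x : ℕ)) : ℤ) : ℝ) = ((4 * n : ℤ) : ℝ) := by
        push_cast
        have e1 : ((e (c.f b x) : ℤ) : ℝ) = 4 * (E₀ (c.f b x) - E₀ x0) := h2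
        have e2 : ((e x : ℤ) : ℝ) = 4 * (E₀ x - E₀ x0) := h1
        rw [e1, e2, hH4]
        cases b
        · have e : H906.sg false = -1 := by simp [H906.sg]
          rw [e] at hn
          have e3 : sz false = -1 := rfl
          rw [e3]
          push_cast
          linarith
        · have e : H906.sg true = 1 := by simp [H906.sg]
          rw [e] at hn
          have e3 : sz true = 1 := rfl
          rw [e3]
          push_cast
          linarith
      exact_mod_cast h3
    · have h1 := tot_all hg hcol law.sym law.tot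
      have h2 : ∑ y ∈ (rc c K wl).S, (lam true (ri K y) + lam false (ri K y)) =
          ∑ x ∈ c.S, (lam true x + lam false x) := by
        show ∑ y ∈ c.S.image (ro K wl), _ = _
        rw [Finset.sum_image fun x hx y hy h => hi.inj x hx y hy h]
        exact Finset.sum_congr rfl fun x hx => by rw [hri x hx]
      exact h2.trans_le h1
    · intro y hy
      obtain ⟨x, hx, rfl⟩ := hi.surj y hy
      show lab (ri K ((rc c K wl).f (col (ri K (ro K wl x))) (ro K wl x))) =
        lab (ri K (ro K wl x)) + (lam (col (ri K (ro K wl x))) (ri K (ro K wl x)) : ℕ)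
      rw [hri x hx, ← hi.comm (col x) x hx, hri _ (hg.mem (col x) x hx)]
      exact law.lab (col x) x hx rfl
  have hcol' : ColOK (fun y => col (ri K y)) (rc c K wl) := by
    intro b y hy
    obtain ⟨x, hx, rfl⟩ := hi.surj y hy
    show col (ri K ((rc c K wl).f b (ro K wl x))) = !col (ri K (ro K wl x))
    rw [← hi.comm b x hx, hri x hx, hri _ (hg.mem b x hx)]
    exact hcol b x hx
  have tr : ∀ F : ℝ → ℝ, GoodE c F → GoodE (rc c K wl) (fun y => F (ri K y)) := by
    rintro F ⟨M, hM⟩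
    exact ⟨M, hi.valid hg (fun x hx => by rw [hri x hx]) hM⟩
  have vv : ∀ F : ℝ → ℝ, GoodE c F → vt (fun y => col (ri K y)) (rc c K wl)
      (fun y => F (ri K y)) = vt col c F := by
    rintro F ⟨M, hM⟩
    exact (vt_iso hg hg' hcol hcol' hM hi (fun x hx => by rw [hri x hx])
      (fun x hx => by rw [hri x hx])).symm
  have hex := hex_vt (c := rc c K wl) (E0 := fun y => E₀ (ri K y)) (κ := 1 / 2) hg' hcol' hH hmk
    (by norm_num) (by
      intro y hy z hz _ _
      obtain ⟨x, hx, rfl⟩ := hi.surj y hy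
      obtain ⟨u, hu, rfl⟩ := hi.surj z hz
      have h1 := hround x hx
      have h2 := hround u hu
      show E₀ (ri K (ro K wl x)) - E₀ (ri K (ro K wl u)) =
        1 / 2 / 2 * ((e (ri K (ro K wl x)) : ℝ) - (e (ri K (ro K wl u)) : ℝ))
      rw [hri x hx, hri u hu]
      have e1 : ((e x : ℤ) : ℝ) = 4 * (E₀ x - E₀ x0) := h1
      have e2 : ((e u : ℤ) : ℝ) = 4 * (E₀ u - E₀ x0) := h2
      rw [e1, e2]; ring)
    (fun i y => Ep i (ri K y)) (fun i y => Em i (ri K y)) (fun i => tr _ (hp i))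
    (fun i => tr _ (hm i))
    (by
      intro i y hy hcy
      obtain ⟨x, hx, rfl⟩ := hi.surj y hy
      have hcx : col (ri K (ro K wl x)) = true := hcy
      show Ep i (ri K (ro K wl x)) = E₀ (ri K (ro K wl x)) +
        if lab (ri K (ro K wl x)) = i then 1 / 2 else 0
      rw [hri x hx] at hcx ⊢
      exact hpE i x hx hcx)
    (by
      intro i y hy hcy
      obtain ⟨x, hx, rfl⟩ := hi.surj y hy
      have hcx : col (ri K (ro K wl x)) = true := hcy
      show Em i (ri K (ro K wl x)) = E₀ (ri K (ro K wl x)) -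
        if lab (ri K (ro K wl x)) = i then 1 / 2 else 0
      rw [hri x hx] at hcx ⊢
      exact hmE i x hx hcx)
  rw [Finset.sum_congr rfl fun i _ => by rw [vv _ (hp i), vv _ (hm i)]] at hex
  linarith

/-- **The hexagon rule.** -/
theorem hexGeom {h : ℕ} (P : H682.OData h) : OTri.HexGeom P vminus := hexGeom_of hexVt P

end Vale.Agent.P040.H908
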