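import Vale.Agent.P040.H908.HexCut
import Vale.Agent.P040.H522.OFin

/-!
# `OddMachine` (helper908)
-/

set_option autoImplicit false

namespace Vale.Agent.P040.H908

/-- **The machine for an odd number of leaves.** -/
theorem oddMachine : Odd.OddMachine := H522.oddMachine_of_hex fun _ P => hexGeom P

end Vale.Agent.P040.H908
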