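import Vale.Agent.P040.H908.Closed

/-!
# The difference of two consistent functions on a doubled sub-star (helper908)
-/

set_option autoImplicit false

namespace Vale.Agent.P040.H908

open Pst

/-- `u` and `v` vanish at the copies of the points of the arm before the last one and at
`z + ε`. -/
structure Van (ε : ℝ) (u v : ℝ → ℝ) (l : List ℝ) (z : ℝ) : Prop where
  um : ∀ p ∈ l.dropLast, u (p - ε) = 0
  up : ∀ p ∈ l.dropLast, u (p + ε) = 0
  vm : ∀ p ∈ l.dropLast, v (p - ε) = 0
  vp : ∀ p ∈ l.dropLast, v (p + ε) = 0
  uz : u (z + ε) = 0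
  vz : v (z + ε) = 0

lemma Van.tail {ε : ℝ} {u v : ℝ → ℝ} {a b : ℝ} {t : List ℝ} {z : ℝ}
    (h : Van ε u v (a :: b :: t) z) : Van ε u v (b :: t) z where
  um := fun p hp => h.um p (by rw [List.dropLast_cons_cons]; exact List.mem_cons_of_mem _ hp)
  up := fun p hp => h.up p (by rw [List.dropLast_cons_cons]; exact List.mem_cons_of_mem _ hp)
  vm := fun p hp => h.vm p (by rw [List.dropLast_cons_cons]; exact List.mem_cons_of_mem _ hp)
  vp := fun p hp => h.vp p (by rw [List.dropLast_cons_cons]; exact List.mem_cons_of_mem _ hp)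
  uz := h.uz
  vz := h.vz

lemma dir_zero {ε δ : ℝ} {pg : Bool} (h : Dir ε pg δ) {M : ℝ → ℝ} {p : ℝ}
    (h1 : M (p - ε) = 0) (h2 : M (p + ε) = 0) : M (p - δ) = 0 ∧ M (p + δ) = 0 := by
  rcases h with ⟨rfl, rfl⟩ | ⟨rfl, rfl⟩
  · rw [sub_neg_eq_add, ← sub_eq_add_neg]; exact ⟨h2, h1⟩
  · exact ⟨h1, h2⟩

/-- the page of the tip piece -/
def tipPage (pg : Bool) (l : List ℝ) : Bool := fl (l.length - 1) pg

/-- The values of `D` on a doubled arm. -/
theorem fin_vals {ε : ℝ} (hε : 0 < ε) {u v D : ℝ → ℝ} {z : ℝ} (l : List ℝ) :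
    ∀ {pg : Bool} {δ : ℝ}, Dir ε pg δ → Dat ε u v l z → Van ε u v l z →
    Cons 0 u v D pg (dd δ l) →
    (∀ p ∈ sh δ l.dropLast, D p = Ph u v D (!pg) (l.headI + δ)) ∧
    (∀ p ∈ sh (-δ) l.dropLast, D p = Ph u v D (!pg) (l.headI + δ) + (u (z - ε) + v (z - ε))) ∧
    D (z - ε) = Ph u v D (!pg) (l.headI + δ) + u (z - ε) ∧
    D (z + ε) = Ph u v D (!pg) (l.headI + δ) +
      (if tipPage pg l then 0 else (u (z - ε) + v (z - ε))) := by
  induction l with
  | nil => intro pg δ _ h; exact absurd h.last (by simp)
  | cons a t ih =>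
    intro pg δ hd hD hV hC
    cases t with
    | nil =>
      have hz : a = z := by simpa using hD.last
      subst hz
      have h1 : D (a - δ) - D (a + δ) = inc 0 u v pg (a + δ) (a - δ) := by
        have : dd δ [a] = [a + δ, a - δ] := by rw [dd_cons]; rfl
        rw [this, cons_cons] at hC
        exact hC.1
      have hu := hV.uz
      have hv := hV.vz
      refine ⟨by intro p hp; simp at hp, by intro p hp; simp at hp, ?_, ?_⟩
      · simp only [List.headI_cons]
        rcases hd with ⟨rfl, rfl⟩ | ⟨rfl, rfl⟩
        · simp only [Ph, Bool.not_false, if_true]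
          rw [← sub_eq_add_neg]; ring
        · rw [inc_true] at h1
          simp only [Ph, Bool.not_true, Bool.false_eq_true, if_false]
          linear_combination h1 - hu - hv
      · simp only [List.headI_cons]
        rcases hd with ⟨rfl, rfl⟩ | ⟨rfl, rfl⟩
        · rw [inc_false] at h1
          have : tipPage false [a] = false := rfl
          rw [this]
          simp only [Ph, Bool.not_false, if_true, Bool.false_eq_true, if_false]
          rw [sub_neg_eq_add, ← sub_eq_add_neg] at *
          linear_combination h1 - hv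
        · have : tipPage true [a] = true := rfl
          rw [this]
          simp only [Ph, Bool.not_true, Bool.false_eq_true, if_false, if_true]
          linear_combination -hv
    | cons b t =>
      rw [cons_dd₂] at hC
      obtain ⟨h1, h2, h3⟩ := hC
      obtain ⟨i1, i2, i3, i4⟩ := ih hd.not hD.tail hV.tail h2
      have ida := darm hε (b :: t) hd.not hD.tail h2
      rw [Bool.not_not, List.headI_cons] at i1 i2 i3 i4
      simp only [Bool.not_not, List.headI_cons, sub_neg_eq_add, ← sub_eq_add_neg] at ida
      rw [← sub_eq_add_neg] at i1 i2 i3 i4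
      rw [neg_neg] at i2
      have hu := hV.uz
      have hv := hV.vz
      obtain ⟨um, up⟩ := dir_zero hd (hV.um a (by simp)) (hV.up a (by simp))
      obtain ⟨vm, vp⟩ := dir_zero hd (hV.vm a (by simp)) (hV.vp a (by simp))
      have ep : ∀ c, Ph u v D c (a + δ) = D (a + δ) := by
        intro c
        cases c
        · simp [Ph, vp]
        · simp [Ph, up]
      have em : ∀ c, Ph u v D c (a - δ) = D (a - δ) := by
        intro c
        cases c
        · simp [Ph, vm]
        · simp [Ph, um]
      have p1 := ph_step h1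
      have p3 := ph_step h3
      simp only [mul_zero, zero_mul, neg_zero] at p1 p3
      have e1 : Ph u v D pg (b - δ) = D (a + δ) := by
        rw [← ep pg]; linarith
      have e2 : D (a - δ) = Ph u v D pg (b + δ) := by
        rw [← em pg]; linarith
      rw [e1] at i1 i2 i3 i4 ida
      simp only [List.headI_cons]
      rw [ep]
      have hda : D (a - δ) = D (a + δ) + (u (z - ε) + v (z - ε)) := by
        rw [e2]
        linear_combination ida - hu - hv
      refine ⟨?_, ?_, i3, ?_⟩
      · intro p hp
        rw [List.dropLast_cons_cons, sh_cons] at hp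
        rcases List.mem_cons.1 hp with rfl | hp
        · rfl
        · exact i1 p hp
      · intro p hp
        rw [List.dropLast_cons_cons, sh_cons] at hp
        rcases List.mem_cons.1 hp with rfl | hp
        · rw [← sub_eq_add_neg]; exact hda
        · rw [neg_neg] at hp
          exact i2 p hp
      · rw [i4]
        have : tipPage pg (a :: b :: t) = tipPage (!pg) (b :: t) := rfl
        rw [this]

/-- the entry values of the arms -/
theorem entry {ε : ℝ} (hε : 0 < ε) {u v D : ℝ → ℝ} (A0 : List (List ℝ)) :
    ∀ (l q : List ℝ) (A1 : List (List ℝ)) (A : List (List ℝ)), l :: A = A0 ++ q :: A1 →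
    SD ε u v (l :: A) → Cons 0 u v D false (dA ε (l :: A)) →
    Ph u v D true (q.headI - ε) = Ph u v D true (l.headI - ε) - (A0.map (al ε u v)).sum ∧
      Cons 0 u v D false (dd (-ε) q) := by
  induction A0 with
  | nil =>
    intro l q A1 A h hS hC
    obtain ⟨rfl, rfl⟩ := List.cons.inj h
    refine ⟨by simp, ?_⟩
    rw [dA_cons] at hC
    intro c a b hx
    apply hC c a b
    -- pieces of an initial part
    have key : ∀ (l t : List ℝ) (pg : Bool) (q : Bool × ℝ × ℝ), q ∈ pcs pg l → q ∈ pcs pg (l ++ t) := by
      intro l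
      induction l with
      | nil => intro t pg q h; simp at h
      | cons x l ih =>
        intro t pg q h
        cases l with
        | nil => simp at h
        | cons y l =>
          rw [List.cons_append, List.cons_append, pcs_cons]
          rw [pcs_cons] at h
          rcases List.mem_cons.1 h with h | h
          · rw [h]; exact List.mem_cons_self
          · exact List.mem_cons_of_mem _ (ih t (!pg) q h)
    exact key _ _ _ _ hx
  | cons l0 A0 ih =>
    intro l q A1 A h hS hC
    rw [List.cons_append] at h
    obtain ⟨rfl, rfl⟩ := List.cons.inj h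
    obtain ⟨l', A', hA'⟩ : ∃ l' A', A0 ++ q :: A1 = l' :: A' := by
      cases A0 with
      | nil => exact ⟨q, A1, rfl⟩
      | cons x A0 => exact ⟨x, A0 ++ q :: A1, rfl⟩
    rw [hA'] at hS hC
    have hD := hS.dat l (by simp)
    have hD' := hS.dat l' (by simp)
    obtain ⟨m, h1, -, h3⟩ := dd_form hD.ne_nil (-ε)
    obtain ⟨t', ht'⟩ := dA_cons_head (ε := ε) hD'.ne_nil A'
    have hm : fl m.length false = true := by
      have h4 : fl (m.length + 1) false = false := by rw [h3, fl_two_mul]
      rw [fl_succ] at h4
      simpa using h4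
    rw [dA_cons, h1, ht', sub_neg_eq_add] at hC
    have hC' : Cons 0 u v D false (m ++ (l.headI + ε) :: (l'.headI - ε) :: t') := by
      rw [List.append_assoc] at hC
      exact hC
    rw [cons_append, hm, fl_succ, hm, Bool.not_true] at hC'
    obtain ⟨c1, c2, c3⟩ := hC'
    rw [← ht'] at c3
    obtain ⟨i1, i2⟩ := ih l' q A1 A' hA'.symm hS.tail c3
    refine ⟨?_, i2⟩
    have hC1 : Cons 0 u v D false (dd (-ε) l) := by rw [h1, sub_neg_eq_add]; exact c1
    have h4 := darm hε l (pg := false) (δ := -ε) (Or.inl ⟨rfl, rfl⟩) hD hC1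
    rw [Bool.not_false, sub_neg_eq_add, ← sub_eq_add_neg] at h4
    have h5 := ph_step c2
    simp only [mul_zero, zero_mul, neg_zero] at h5
    rw [i1, List.map_cons, List.sum_cons]
    simp only [al] at *
    linear_combination h4 + h5

end Vale.Agent.P040.H908
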