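import Vale.Agent.P040.H908.TriVal
import Vale.Agent.P040.H700.HexDef
import Vale.Agent.P040.H251.Plus2

/-!
# Odd layer: doubled sub-stars with shares of the masses (helper908)

On the definitions of helper700 (`DK`): existence of the phases, removal of a finger of weight `0`,
comparison with the data `DC` of one cut leaf.
-/

set_option autoImplicit false

namespace Vale.Agent.P040.H908

open Pst P040H251 H682 H700

variable {h : ℕ} {P : OData h}

/-- the leaves are far apart -/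
def Far (P : OData h) (ε : ℝ) : Prop := ∀ i j, i ≠ j → 3 * ε < |P.pos i - P.pos j|

lemma far_of_star {S : List (Fin (2 * h + 1) × List ℝ)} (hS : IsStar P.pos S) {ε : ℝ}
    (hε : Sepd ε (pts S)) : Far P ε := by
  intro i j hij
  exact hε _ (leaf_pts hS i) _ (leaf_pts hS j) (fun hh => hij (pos_inj hS hh))

lemma Far.rk_le {ε : ℝ} (hF : Far P ε) (h0 : 0 < ε) (x : ℝ) :
    P.rk x ≤ P.rk (x - 2 * ε) + 1 := by
  unfold OData.rk
  by_contra hc
  push Not at hc
  have hsub : (Finset.univ.filter fun i => P.pos i < x - 2 * ε) ⊆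
      Finset.univ.filter fun i => P.pos i < x := by
    intro i hi
    rw [Finset.mem_filter] at hi ⊢
    exact ⟨hi.1, by linarith [hi.2]⟩
  have h1 : 1 < ((Finset.univ.filter fun i => P.pos i < x) \
      Finset.univ.filter fun i => P.pos i < x - 2 * ε).card := by
    rw [Finset.card_sdiff_of_subset hsub]
    omega
  obtain ⟨i, hi, j, hj, hij⟩ := Finset.one_lt_card.1 h1
  rw [Finset.mem_sdiff, Finset.mem_filter, Finset.mem_filter] at hi hj
  have hi1 := hi.1.2
  have hi2 : x - 2 * ε ≤ P.pos i := by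
    by_contra hh
    exact hi.2 ⟨Finset.mem_univ _, not_le.1 hh⟩
  have hj1 := hj.1.2
  have hj2 : x - 2 * ε ≤ P.pos j := by
    by_contra hh
    exact hj.2 ⟨Finset.mem_univ _, not_le.1 hh⟩
  have h2 := hF i j hij
  have h3 : |P.pos i - P.pos j| ≤ 2 * ε := by
    rw [abs_le]; constructor <;> linarith
  linarith

lemma rk_lt_of {i : Fin (2 * h + 1)} {x : ℝ} (hh : P.pos i < x) : P.rk (P.pos i) < P.rk x :=
  (P.rk_lt_iff i x).2 hh

/-- **The masses of the data `DK`.** -/
lemma DK_C {ε : ℝ} (hF : Far P ε) (h0 : 0 < ε) (κ : Fin (2 * h + 1) → ℕ) (b : Bool) (x : ℝ) :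
    (DK P κ ε).C b ((DK P κ ε).lab x) =
      ∑ i, ((if P.pos i < x then inn P κ i b else 0) +
        (if P.pos i < x - 2 * ε then P.mu i b - inn P κ i b else 0)) := by
  show cK P κ b (P.rk x + P.rk (x - 2 * ε)) = _
  unfold cK
  apply Finset.sum_congr rfl
  intro i _
  have h1 := hF.rk_le h0 x
  have h2 : P.rk (x - 2 * ε) ≤ P.rk x := P.rk_mono (by linarith)
  have e1 : 2 * P.rk (P.pos i) < P.rk x + P.rk (x - 2 * ε) ↔ P.pos i < x := by
    constructor
    · intro hh
      by_contra hc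
      have := P.rk_mono (not_lt.1 hc)
      omega
    · intro hh
      have := rk_lt_of hh
      omega
  have e2 : 2 * P.rk (P.pos i) + 1 < P.rk x + P.rk (x - 2 * ε) ↔ P.pos i < x - 2 * ε := by
    constructor
    · intro hh
      by_contra hc
      have := P.rk_mono (not_lt.1 hc)
      omega
    · intro hh
      have := rk_lt_of hh
      omega
  rw [if_congr e1 rfl rfl, if_congr e2 rfl rfl]

/-- the part of the leaf `i` in the masses of `DK` -/
noncomputable def trm (P : OData h) (κ : Fin (2 * h + 1) → ℕ) (ε : ℝ) (b : Bool) (x : ℝ)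
    (i : Fin (2 * h + 1)) : ℝ :=
  (if P.pos i < x then inn P κ i b else 0) +
    (if P.pos i < x - 2 * ε then P.mu i b - inn P κ i b else 0)

lemma trm_lt {κ : Fin (2 * h + 1) → ℕ} {ε : ℝ} (h0 : 0 < ε) {b : Bool} {x : ℝ}
    {i : Fin (2 * h + 1)} (hx : x ≤ P.pos i) : trm P κ ε b x i = 0 := by
  unfold trm
  rw [if_neg (not_lt.2 hx), if_neg (not_lt.2 (by linarith)), add_zero]

lemma trm_gt {κ : Fin (2 * h + 1) → ℕ} {ε : ℝ} (h0 : 0 < ε) {b : Bool} {x : ℝ}
    {i : Fin (2 * h + 1)} (hx : P.pos i < x - 2 * ε) : trm P κ ε b x i = P.mu i b := by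
  unfold trm
  rw [if_pos (by linarith), if_pos hx]
  ring

lemma trm_mid {κ : Fin (2 * h + 1) → ℕ} {ε : ℝ} {b : Bool} {x : ℝ}
    {i : Fin (2 * h + 1)} (hx : P.pos i < x) (hx' : x - 2 * ε ≤ P.pos i) :
    trm P κ ε b x i = inn P κ i b := by
  unfold trm
  rw [if_pos hx, if_neg (not_lt.2 hx'), add_zero]

/-- a point which is not a leaf of a star -/
lemma ne_leaf {S : List (Fin (2 * h + 1) × List ℝ)} (hS : IsStar P.pos S)
    {q : Fin (2 * h + 1) × List ℝ} (hq : q ∈ S) {p : ℝ} (hp : p ∈ q.2.dropLast)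
    (i : Fin (2 * h + 1)) : p ≠ P.pos i := by
  rintro rfl
  obtain ⟨q', hq', rfl⟩ := List.mem_map.1 (hS.full i)
  obtain ⟨l', hl'⟩ := hS.ends q' hq'
  obtain ⟨l, hl⟩ := hS.ends q hq
  have hn := hS.nodup
  have hpq : P.pos q'.1 ∈ q.2 := List.mem_of_mem_dropLast hp
  have hqn : q.2.Nodup := by
    rw [pts_eq, List.nodup_flatten] at hn
    exact hn.1 _ (List.mem_map_of_mem hq)
  have hne2 : q.2 ≠ q'.2 := by
    intro h
    rw [h, hl', List.dropLast_concat] at hp
    rw [h, hl'] at hqn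
    exact (List.nodup_append.1 hqn).2.2 _ hp _ (by simp) rfl
  rw [pts_eq, List.nodup_flatten] at hn
  have : Std.Symm (fun a b : List ℝ => List.Disjoint a b) := ⟨fun _ _ h => h.symm⟩
  have := hn.2.forall (List.mem_map_of_mem hq) (List.mem_map_of_mem hq') hne2
  exact this hpq (by rw [hl']; simp)

lemma far_pt {S : List (Fin (2 * h + 1) × List ℝ)} (hS : IsStar P.pos S) {ε : ℝ}
    (hε : Sepd ε (pts S)) {p : ℝ} (hp : p ∈ pts S) {i : Fin (2 * h + 1)} (hne : p ≠ P.pos i) :
    3 * ε < |p - P.pos i| :=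
  hε _ hp _ (leaf_pts hS i) hne

/-- nothing changes at a leaf far away -/
lemma trm_far {κ : Fin (2 * h + 1) → ℕ} {ε : ℝ} (h0 : 0 < ε) {b : Bool} {p x y : ℝ}
    {i : Fin (2 * h + 1)} (hp : 3 * ε < |p - P.pos i|) (hx : |x - p| ≤ ε) (hy : |y - p| ≤ ε) :
    trm P κ ε b x i = trm P κ ε b y i := by
  rw [abs_le] at hx hy
  rcases lt_abs.1 hp with h1 | h1
  · rw [trm_gt h0 (by linarith), trm_gt h0 (by linarith)]
  · rw [trm_lt h0 (by linarith), trm_lt h0 (by linarith)]

lemma lab_far {κ : Fin (2 * h + 1) → ℕ} {ε : ℝ} (h0 : 0 < ε) {p : ℝ}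
    (hp : ∀ i, 3 * ε < |p - P.pos i|) :
    (DK P κ ε).lab (p - ε) = (DK P κ ε).lab (p + ε) := by
  show P.rk (p - ε) + P.rk (p - ε - 2 * ε) = P.rk (p + ε) + P.rk (p + ε - 2 * ε)
  have hn : ∀ i, P.pos i ∉ Set.Icc (p - 3 * ε) (p + ε) := by
    intro i hi
    have h1 := hp i
    have : |p - P.pos i| ≤ 3 * ε := by rw [abs_le]; constructor <;> linarith [hi.1, hi.2]
    linarith
  have e1 : P.rk (p - ε) = P.rk (p + ε) :=
    P.rk_congr (by linarith) fun i hi => hn i ⟨by linarith [hi.1], hi.2.le⟩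
  have e2 : P.rk (p - ε - 2 * ε) = P.rk (p + ε - 2 * ε) :=
    P.rk_congr (by linarith) fun i hi => hn i ⟨by linarith [hi.1], by linarith [hi.2]⟩
  rw [e1, e2]

lemma DK_C' {ε : ℝ} (hF : Far P ε) (h0 : 0 < ε) (κ : Fin (2 * h + 1) → ℕ) (b : Bool) (x : ℝ) :
    (DK P κ ε).C b ((DK P κ ε).lab x) = ∑ i, trm P κ ε b x i := DK_C hF h0 κ b x

/-- the change of the masses at a leaf -/
lemma DK_leaf {ε : ℝ} (hF : Far P ε) (h0 : 0 < ε) (κ : Fin (2 * h + 1) → ℕ) (b : Bool)
    (z : Fin (2 * h + 1)) :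
    (DK P κ ε).C b ((DK P κ ε).lab (P.pos z + ε)) =
      (DK P κ ε).C b ((DK P κ ε).lab (P.pos z - ε)) + inn P κ z b := by
  rw [DK_C' hF h0, DK_C' hF h0]
  have e : ∀ i, trm P κ ε b (P.pos z + ε) i =
      trm P κ ε b (P.pos z - ε) i + if i = z then inn P κ z b else 0 := by
    intro i
    split_ifs with hi
    · subst hi
      rw [trm_mid (by linarith) (by linarith), trm_lt h0 (by linarith), zero_add]
    · rw [add_zero]
      refine trm_far (p := P.pos z) h0 ?_ ?_ ?_
      · have := hF z i (fun hh => hi hh.symm)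
        exact this
      · rw [add_sub_cancel_left, abs_of_pos h0]
      · rw [show P.pos z - ε - P.pos z = -ε by ring, abs_neg, abs_of_pos h0]
  rw [Finset.sum_congr rfl fun i _ => e i, Finset.sum_add_distrib, Finset.sum_ite_eq',
    if_pos (Finset.mem_univ _)]

lemma al_DK {S : List (Fin (2 * h + 1) × List ℝ)} (hS : IsStar P.pos S) {ε : ℝ}
    (hε : Sepd ε (pts S)) (h0 : 0 < ε) (κ : Fin (2 * h + 1) → ℕ)
    {q : Fin (2 * h + 1) × List ℝ} (hq : q ∈ S) :
    al ε (fun x => (DK P κ ε).C true ((DK P κ ε).lab x))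
      (fun x => (DK P κ ε).C false ((DK P κ ε).lab x)) q.2 =
      inn P κ q.1 true + inn P κ q.1 false := by
  obtain ⟨l, hl⟩ := hS.ends q hq
  unfold al
  rw [lst_of hl]
  have hF := far_of_star hS hε
  dsimp only
  rw [DK_leaf hF h0 κ true, DK_leaf hF h0 κ false]
  ring

theorem subS_DK {S T : List (Fin (2 * h + 1) × List ℝ)} (hS : IsStar P.pos S)
    (hT : T.Sublist S) {ε : ℝ} (hε : Sepd ε (pts S)) (h0 : 0 < ε) (κ : Fin (2 * h + 1) → ℕ) :
    SubS ε (DK P κ ε) (T.map fun q => inn P κ q.1 true + inn P κ q.1 false).sum T := by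
  have hTS : ∀ q ∈ T, q ∈ S := fun q hq => hT.subset hq
  have hsub := pts_sublist hT
  have hnT : (pts T).Nodup := hS.nodup.sublist hsub
  have hlab : ∀ q ∈ T, ∀ p ∈ q.2.dropLast,
      (DK P κ ε).lab (p - ε) = (DK P κ ε).lab (p + ε) := by
    intro q hq p hp
    have hpS : p ∈ pts S :=
      List.mem_flatMap.2 ⟨q, hTS q hq, List.mem_of_mem_dropLast hp⟩
    exact lab_far h0 fun i => far_pt hS hε hpS (ne_leaf hS (hTS q hq) hp i)
  refine ⟨h0, ⟨?_, ?_, ?_⟩, hlab, ?_, fun c a b a' b' h h' => hS.dbl_nc hT hε h0 h h', ?_⟩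
  · intro l hl
    obtain ⟨q, hq, rfl⟩ := List.mem_map.1 hl
    obtain ⟨l', hl'⟩ := hS.ends q (hTS q hq)
    refine ⟨?_, ?_, ?_, ?_, ?_⟩
    · rw [lst_of hl', hl']; simp
    · have hn := hnT
      rw [pts_eq, List.nodup_flatten] at hn
      exact hn.1 _ hl
    · exact hε.mono fun p hp => List.mem_flatMap.2 ⟨q, hTS q hq, hp⟩
    · intro p hp
      rw [hlab q hq p hp]
    · intro p hp
      rw [hlab q hq p hp]
  · rw [← pts_eq]; exact hnT
  · rw [← pts_eq]; exact hε.mono fun p hp => hsub.subset hp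
  · rw [List.map_map]
    congr 1
    apply List.map_congr_left
    intro q hq
    exact al_DK hS hε h0 κ (hTS q hq)
  · have hc : Pst.Cyc (fsts S) := hS.cyc
    exact Pst.Cyc.sublist hc (List.Sublist.map _ hT)

/-- **(i) Existence of the phases** of a doubled sub-star with shares. -/
theorem exists_DK {S T : List (Fin (2 * h + 1) × List ℝ)} (hS : IsStar P.pos S)
    (hT : T.Sublist S) {ε : ℝ} (hε : Sepd ε (pts S)) (h0 : 0 < ε) (κ : Fin (2 * h + 1) → ℕ)
    (hne : T ≠ [])
    (hsum : (T.map fun q => inn P κ q.1 true + inn P κ q.1 false).sum = h + 1 / 2) :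
    ∃ E, Cons (DK P κ ε).M (fun x => (DK P κ ε).C true ((DK P κ ε).lab x))
        (fun x => (DK P κ ε).C false ((DK P κ ε).lab x)) E false (dbl ε T) ∧
      Crv (DK P κ ε) false (dbl ε T) E := by
  have h1 := subS_DK hS hT hε h0 κ
  rw [hsum] at h1
  have h2 : (h : ℝ) + 1 / 2 = 2 * (DK P κ ε).M := by
    show (h : ℝ) + 1 / 2 = 2 * (((h : ℝ) + 1 / 2) / 2)
    ring
  rw [h2] at h1
  exact h1.crv hne

/-! ### (ii) the finger of weight zero -/

/-- the labels when the leaf `z` is moved to the right -/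
noncomputable def DKz (P : OData h) (κ : Fin (2 * h + 1) → ℕ) (ε : ℝ) (z : Fin (2 * h + 1)) :
    P040H251.Dat ℝ where
  lab := fun x => if P.pos z < x ∧ x ≤ P.pos z + 2 * ε then (DK P κ ε).lab (P.pos z)
    else (DK P κ ε).lab x
  mono := by
    intro x y hxy
    dsimp only
    split_ifs with h1 h2 h2
    · exact le_rfl
    · exact (DK P κ ε).mono (by linarith [h1.1])
    · apply (DK P κ ε).mono
      by_contra hh
      push Not at hh
      exact h1 ⟨hh, by linarith [h2.2]⟩
    · exact (DK P κ ε).mono hxy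
  C := (DK P κ ε).C
  Cmono := (DK P κ ε).Cmono
  M := (DK P κ ε).M
  pos := (DK P κ ε).pos
  tot := (DK P κ ε).tot

lemma DKz_C {ε : ℝ} (hF : Far P ε) (h0 : 0 < ε) {κ : Fin (2 * h + 1) → ℕ}
    {z : Fin (2 * h + 1)} (hz : κ z = 0) (b : Bool) (x : ℝ) :
    (DKz P κ ε z).C b ((DKz P κ ε z).lab x) = (DK P κ ε).C b ((DK P κ ε).lab x) := by
  unfold DKz
  dsimp only
  split_ifs with hx
  · rw [DK_C' hF h0, DK_C' hF h0]
    apply Finset.sum_congr rfl
    intro i _
    by_cases hi : i = z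
    · subst hi
      rw [trm_lt h0 le_rfl, trm_mid hx.1 (by linarith [hx.2])]
      unfold inn
      rw [if_pos hz]
    · have h1 := hF z i (fun hh => hi hh.symm)
      rcases lt_abs.1 h1 with h2 | h2
      · rw [trm_gt h0 (by linarith), trm_gt h0 (by linarith [hx.1])]
      · rw [trm_lt h0 (by linarith), trm_lt h0 (by linarith [hx.2])]
  · rfl

theorem skip_DK (T : VApi ℝ) {S S₁ S₂ : List (Fin (2 * h + 1) × List ℝ)}
    {q : Fin (2 * h + 1) × List ℝ} (hS : IsStar P.pos S) (hsub : (S₁ ++ q :: S₂).Sublist S)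
    {ε : ℝ} (hε : Sepd ε (pts S)) (h0 : 0 < ε) {κ : Fin (2 * h + 1) → ℕ} (hq : κ q.1 = 0)
    (hne : S₁ ++ S₂ ≠ []) {E : ℝ → ℝ} (hE : Crv (DK P κ ε) false (dbl ε (S₁ ++ q :: S₂)) E) :
    Crv (DK P κ ε) false (dbl ε (S₁ ++ S₂)) E ∧
      T.val false (dbl ε (S₁ ++ S₂)) E = T.val false (dbl ε (S₁ ++ q :: S₂)) E := by
  have hF := far_of_star hS hε
  have hqS : q ∈ S := hsub.subset (by simp)
  have h1 : Crv (DKz P κ ε q.1) false (dbl ε (S₁ ++ q :: S₂)) E :=
    crv_congr hE rfl fun b x _ => DKz_C hF h0 hq b x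
  have hpos : 0 < (dbl ε (S₁ ++ S₂)).length := by
    cases hS12 : S₁ ++ S₂ with
    | nil => exact absurd hS12 hne
    | cons r R =>
      have hr : r ∈ S := by
        have h2 : r ∈ S₁ ++ S₂ := by rw [hS12]; simp
        apply hsub.subset
        rcases List.mem_append.1 h2 with h3 | h3 <;> simp [h3]
      obtain ⟨l, hl⟩ := hS.ends r hr
      rw [dbl_eq, List.map_cons, dA_cons, List.length_append, dd_length, hl]
      simp
  have hsep : Sepd ε (pts (S₁ ++ q :: S₂)) := hε.mono fun p hp => (pts_sublist hsub).subset hp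
  obtain ⟨l, hl⟩ := hS.ends q hqS
  have h2 := T.dbl_finger hsep h0 (by
    intro p hp
    rw [hl, List.mem_append, List.mem_singleton] at hp
    rcases hp with hp | rfl
    · have hd : p ∈ q.2.dropLast := by rw [hl, List.dropLast_concat]; exact hp
      have hpS : p ∈ pts S := List.mem_flatMap.2 ⟨q, hqS, List.mem_of_mem_dropLast hd⟩
      have hfar := fun i => far_pt hS hε hpS (ne_leaf hS hqS hd i)
      have h3 := lab_far (κ := κ) h0 hfar
      have hq1 := hfar q.1
      have hn : ∀ x, |x - p| ≤ ε → ¬ (P.pos q.1 < x ∧ x ≤ P.pos q.1 + 2 * ε) := by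
        rintro x hx ⟨g1, g2⟩
        rw [abs_le] at hx
        have : |p - P.pos q.1| ≤ 3 * ε := by
          rw [abs_le]; constructor <;> linarith [hx.1, hx.2]
        linarith
      unfold DKz
      dsimp only
      rw [if_neg (hn _ (by rw [show p - ε - p = -ε by ring, abs_neg, abs_of_pos h0])),
        if_neg (hn _ (by rw [add_sub_cancel_left, abs_of_pos h0]))]
      exact h3
    · unfold DKz
      dsimp only
      rw [if_neg (by rintro ⟨g, -⟩; linarith), if_pos ⟨by linarith, by linarith⟩]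
      show P.rk (P.pos q.1 - ε) + P.rk (P.pos q.1 - ε - 2 * ε) =
        P.rk (P.pos q.1) + P.rk (P.pos q.1 - 2 * ε)
      have hn : ∀ i, P.pos i ∉ Set.Ico (P.pos q.1 - 3 * ε) (P.pos q.1) := by
        intro i hi
        have hne : q.1 ≠ i := by rintro rfl; exact lt_irrefl _ hi.2
        have h3 := hF q.1 i hne
        have : |P.pos q.1 - P.pos i| ≤ 3 * ε := by
          rw [abs_le]; constructor <;> linarith [hi.1, hi.2]
        linarith
      have e1 : P.rk (P.pos q.1 - ε) = P.rk (P.pos q.1) :=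
        P.rk_congr (by linarith) fun i hi => hn i ⟨by linarith [hi.1], hi.2⟩
      have e2 : P.rk (P.pos q.1 - ε - 2 * ε) = P.rk (P.pos q.1 - 2 * ε) :=
        P.rk_congr (by linarith) fun i hi => hn i ⟨by linarith [hi.1], by linarith [hi.2]⟩
      rw [e1, e2]) hpos h1
  exact ⟨crv_congr h2.1 rfl fun b x _ => (DKz_C hF h0 hq b x).symm, h2.2⟩

/-! ### (iii) comparison with the data of one cut leaf -/

lemma cum_eq (b : Bool) (x : ℝ) : P.cum b (P.rk x) = ∑ i, if P.pos i < x then P.mu i b else 0 := by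
  unfold OData.cum
  rw [Finset.sum_filter]
  apply Finset.sum_congr rfl
  intro i _
  rw [if_congr (P.rk_lt_iff i x) rfl rfl]

lemma DC_C {ε : ℝ} (hF : Far P ε) (h0 : 0 < ε) (z : Fin (2 * h + 1)) (b : Bool) (x : ℝ) :
    (P.DC z (P.pos z + 2 * ε)).C b ((P.DC z (P.pos z + 2 * ε)).lab x) =
      ∑ i, ((if P.pos i < x then P.mu i b else 0) -
        if i = z ∧ P.pos z < x ∧ x ≤ P.pos z + 2 * ε then P.mu z b - P.nin z b else 0) := by
  show P.cc z b (P.rk x + if P.pos z + 2 * ε < x then 1 else 0) = _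
  rw [Finset.sum_sub_distrib, ← cum_eq]
  have e0 : ∑ i, (if i = z ∧ P.pos z < x ∧ x ≤ P.pos z + 2 * ε then P.mu z b - P.nin z b else 0) =
      if P.pos z < x ∧ x ≤ P.pos z + 2 * ε then P.mu z b - P.nin z b else 0 := by
    by_cases hc : P.pos z < x ∧ x ≤ P.pos z + 2 * ε
    · simp [hc]
    · simp [hc]
  rw [e0]
  by_cases h1 : P.pos z + 2 * ε < x
  · rw [if_pos h1, if_neg (by rintro ⟨-, h2⟩; linarith), sub_zero]
    have h2 : P.rk (P.pos z) < P.rk x := rk_lt_of (by linarith)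
    unfold OData.cc
    rw [if_neg (by omega), if_neg (by omega), Nat.add_sub_cancel]
  · rw [if_neg h1, add_zero]
    by_cases h2 : P.pos z < x
    · rw [if_pos ⟨h2, not_lt.1 h1⟩]
      have h3 : P.rk x = P.rk (P.pos z) + 1 := by
        refine P.rk_succ z h2 ?_
        intro j hj
        have hne : z ≠ j := by rintro rfl; exact lt_irrefl _ hj.1
        have h4 := hF z j hne
        have : |P.pos z - P.pos j| ≤ 3 * ε := by
          rw [abs_le]; constructor <;> linarith [hj.1, hj.2, not_lt.1 h1]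
        linarith
      rw [h3, P.cum_succ b z]
      unfold OData.cc
      rw [if_neg (by omega), if_pos rfl]
      ring
    · rw [if_neg (by rintro ⟨g, -⟩; exact h2 g), sub_zero]
      have h3 : P.rk x ≤ P.rk (P.pos z) := P.rk_mono (not_lt.1 h2)
      unfold OData.cc
      rw [if_pos h3]

theorem crv_DC {S T : List (Fin (2 * h + 1) × List ℝ)} (hS : IsStar P.pos S)
    (hT : T.Sublist S) {ε : ℝ} (hε : Sepd ε (pts S)) (h0 : 0 < ε) {κ : Fin (2 * h + 1) → ℕ}
    {z : Fin (2 * h + 1)} (hz : κ z = 1) (hz' : ∀ q ∈ T, q.1 ≠ z → κ q.1 = 2) {E : ℝ → ℝ}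
    (hE : Crv (DK P κ ε) false (dbl ε T) E) :
    Crv (P.DC z (P.pos z + 2 * ε)) false (dbl ε T) E := by
  have hF := far_of_star hS hε
  refine crv_congr hE rfl ?_
  intro b x hx
  rw [DC_C hF h0, DK_C' hF h0]
  apply Finset.sum_congr rfl
  intro i _
  by_cases hi : i = z
  · subst hi
    unfold trm inn
    rw [hz, if_neg one_ne_zero, if_pos rfl]
    by_cases h1 : P.pos i < x
    · by_cases h2 : P.pos i < x - 2 * ε
      · rw [if_pos h1, if_neg (by rintro ⟨-, -, g⟩; linarith), if_pos h1, if_pos h2]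
        ring
      · rw [if_pos h1, if_pos ⟨rfl, h1, by linarith [not_lt.1 h2]⟩, if_pos h1, if_neg h2]
        ring
    · rw [if_neg h1, if_neg (by rintro ⟨-, g, -⟩; exact h1 g), if_neg h1,
        if_neg (by intro g; apply h1; linarith)]
      ring
  · have hc : ¬ (i = z ∧ P.pos z < x ∧ x ≤ P.pos z + 2 * ε) := by
      rintro ⟨g, -⟩
      exact hi g
    rw [if_neg hc, sub_zero]
    obtain ⟨q', hq', p, hp, σ, hσ, rfl⟩ := mem_dbl hx
    have hpS : p ∈ pts S := (pts_sublist hT).subset (List.mem_flatMap.2 ⟨q', hq', hp⟩)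
    by_cases hk : κ i = 2
    · have hinn : inn P κ i b = P.mu i b := by
        unfold inn
        rw [hk, if_neg (by norm_num), if_neg (by norm_num)]
      unfold trm
      rw [hinn, sub_self]
      simp
    · -- the leaf `i` is not in the list
      have hne : p ≠ P.pos i := by
        rintro rfl
        obtain ⟨l', hl'⟩ := hS.ends q' (hT.subset hq')
        rw [hl', List.mem_append, List.mem_singleton] at hp
        rcases hp with hp | hp
        · exact ne_leaf hS (hT.subset hq') (by rw [hl', List.dropLast_concat]; exact hp) i rfl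
        · have h3 : i = q'.1 := pos_inj hS hp
          subst h3
          exact hk (hz' q' hq' hi)
      have h4 := far_pt hS hε hpS hne
      have hσ' : |σ| ≤ ε := le_of_eq (by rw [hσ, abs_of_pos h0])
      rw [abs_le] at hσ'
      rcases lt_abs.1 h4 with h2 | h2
      · rw [trm_gt h0 (by linarith [hσ'.1]), if_pos (by linarith [hσ'.1])]
      · rw [trm_lt h0 (by linarith [hσ'.2]), if_neg (by linarith [hσ'.2])]

end Vale.Agent.P040.H908
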