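import Vale.Agent.P040.H908.Pair

/-!
# The triangle rule (helper908)
-/

set_option autoImplicit false

namespace Vale.Agent.P040.H908

open Pst

/-- the mass function after the mass of the leaf `z` has been moved to `z - 2 ε` -/
noncomputable def mv (ε z : ℝ) (M : ℝ → ℝ) (x : ℝ) : ℝ :=
  if z - 2 * ε < x ∧ x < z + ε then M (z + ε) else M x

lemma mv_mono {ε z : ℝ} {M : ℝ → ℝ} (hM : Monotone M) : Monotone (mv ε z M) := by
  intro x y hxy
  unfold mv
  split_ifs with h1 h2 h2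
  · exact le_rfl
  · apply hM
    by_contra hh
    push Not at hh
    exact h2 ⟨by linarith [h1.1], hh⟩
  · apply hM
    linarith [h2.2]
  · exact hM hxy

lemma mv_far {ε z x : ℝ} {M : ℝ → ℝ} (h : x ≤ z - 2 * ε ∨ z + ε ≤ x) : mv ε z M x = M x := by
  unfold mv
  rw [if_neg]
  rintro ⟨h1, h2⟩
  rcases h with h | h <;> linarith

lemma mv_near {ε z : ℝ} (hε : 0 < ε) {M : ℝ → ℝ} : mv ε z M (z - ε) = M (z + ε) := by
  unfold mv
  rw [if_pos ⟨by linarith, by linarith⟩]

lemma mv_right {ε z : ℝ} {M : ℝ → ℝ} : mv ε z M (z + ε) = M (z + ε) :=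
  mv_far (Or.inr le_rfl)

/-- the mass function is not changed at the copies of other points -/
lemma mv_other {ε z p σ : ℝ} {M : ℝ → ℝ} (h : 3 * ε < |p - z|) (hσ : |σ| ≤ ε) :
    mv ε z M (p + σ) = M (p + σ) := by
  have h1 := abs_le.1 hσ
  apply mv_far
  rcases lt_abs.1 h with h2 | h2
  · right; linarith
  · left; linarith

section
variable {ε : ℝ} {MU ML : ℝ → ℝ} {A : List (List ℝ)}

lemma SD.disj (hS : SD ε MU ML A) {l q : List ℝ} (hl : l ∈ A) (hq : q ∈ A) {p : ℝ} (h1 : p ∈ l)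
    (h2 : p ∈ q) : l = q := by
  by_contra hne
  have h := (List.nodup_flatten.1 hS.nodup).2
  have : Std.Symm (List.Disjoint (α := ℝ)) := ⟨fun _ _ h => h.symm⟩
  have := h.forall hl hq hne
  exact this h1 h2

lemma Dat.split {z : ℝ} {l : List ℝ} (h : Dat ε MU ML l z) : l = l.dropLast ++ [z] := by
  have h1 := h.last
  have h2 := List.dropLast_append_getLast h.ne_nil
  rw [List.getLast?_eq_getLast_of_ne_nil h.ne_nil, Option.some_inj] at h1
  rw [h1] at h2
  exact h2.symm

lemma Dat.mem {z : ℝ} {l : List ℝ} (h : Dat ε MU ML l z) : z ∈ l := by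
  rw [h.split]; simp

lemma Dat.mem_of_dropLast {l : List ℝ} {p : ℝ} (hp : p ∈ l.dropLast) : p ∈ l :=
  List.mem_of_mem_dropLast hp

lemma Dat.ne_last {z : ℝ} {l : List ℝ} (h : Dat ε MU ML l z) {p : ℝ} (hp : p ∈ l.dropLast) :
    p ≠ z := by
  have h1 := h.nodup
  rw [h.split, List.nodup_append] at h1
  exact h1.2.2 p hp z (by simp)

/-- points before the leaf are never the leaf of an arm -/
lemma SD.ne_lst (hS : SD ε MU ML A) {l q : List ℝ} (hl : l ∈ A) (hq : q ∈ A) {p : ℝ}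
    (hp : p ∈ l.dropLast) : p ≠ lst q := by
  intro h
  have h1 : l = q := hS.disj hl hq (List.mem_of_mem_dropLast hp) (h ▸ (hS.dat q hq).mem)
  subst h1
  exact (hS.dat l hl).ne_last hp h

lemma SD.far (hS : SD ε MU ML A) {l q : List ℝ} (hl : l ∈ A) (hq : q ∈ A) {p : ℝ}
    (hp : p ∈ l.dropLast) : 3 * ε < |p - lst q| :=
  hS.sep p (List.mem_flatten.2 ⟨l, hl, List.mem_of_mem_dropLast hp⟩) _
    (List.mem_flatten.2 ⟨q, hq, (hS.dat q hq).mem⟩) (hS.ne_lst hl hq hp)

lemma SD.far' (hS : SD ε MU ML A) {l q : List ℝ} (hl : l ∈ A) (hq : q ∈ A) (hne : l ≠ q) :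
    3 * ε < |lst l - lst q| := by
  refine hS.sep _ (List.mem_flatten.2 ⟨l, hl, (hS.dat l hl).mem⟩) _
    (List.mem_flatten.2 ⟨q, hq, (hS.dat q hq).mem⟩) ?_
  intro h
  exact hne (hS.disj hl hq (hS.dat l hl).mem (h ▸ (hS.dat q hq).mem))

lemma abs_eps (hε : 0 < ε) : |ε| ≤ ε := by rw [abs_of_pos hε]

lemma abs_neg_eps (hε : 0 < ε) : |-ε| ≤ ε := by rw [abs_neg, abs_of_pos hε]

/-- the moved masses -/
lemma SD.mv (hε : 0 < ε) (hS : SD ε MU ML A) {q : List ℝ} (hq : q ∈ A) :
    SD ε (mv ε (lst q) MU) (mv ε (lst q) ML) A where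
  dat := by
    intro l hl
    have hD := hS.dat l hl
    refine ⟨hD.last, hD.nodup, hD.sep, ?_, ?_⟩
    · intro p hp
      rw [sub_eq_add_neg, mv_other (hS.far hl hq hp) (abs_neg_eps hε),
        mv_other (hS.far hl hq hp) (abs_eps hε), ← sub_eq_add_neg]
      exact hD.U p hp
    · intro p hp
      rw [sub_eq_add_neg, mv_other (hS.far hl hq hp) (abs_neg_eps hε),
        mv_other (hS.far hl hq hp) (abs_eps hε), ← sub_eq_add_neg]
      exact hD.L p hp
  nodup := hS.nodup
  sep := hS.sep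

lemma al_mv_self (hε : 0 < ε) {q : List ℝ} : al ε (mv ε (lst q) MU) (mv ε (lst q) ML) q = 0 := by
  unfold al
  rw [mv_near hε, mv_near hε, mv_right, mv_right]
  ring

lemma al_mv_other (hε : 0 < ε) (hS : SD ε MU ML A) {l q : List ℝ} (hl : l ∈ A) (hq : q ∈ A)
    (hne : l ≠ q) : al ε (mv ε (lst q) MU) (mv ε (lst q) ML) l = al ε MU ML l := by
  have h := hS.far' hl hq hne
  unfold al
  rw [sub_eq_add_neg (lst l) ε]
  rw [mv_other h (abs_neg_eps hε), mv_other h (abs_neg_eps hε), mv_other h (abs_eps hε),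
    mv_other h (abs_eps hε)]

/-- the sum of the masses inside the fingers after moving one leaf out -/
lemma sum_al_mv (hε : 0 < ε) (hS : SD ε MU ML A) {q : List ℝ} (hq : q ∈ A) :
    (A.map (al ε (mv ε (lst q) MU) (mv ε (lst q) ML))).sum =
      (A.map (al ε MU ML)).sum - al ε MU ML q := by
  obtain ⟨A0, A1, rfl⟩ := List.append_of_mem hq
  have hn : ∀ l ∈ A0 ++ A1, l ≠ q := by
    intro l hl h
    subst h
    have h1 := (List.nodup_flatten.1 hS.nodup).2
    rw [List.pairwise_append] at h1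
    obtain ⟨-, h2, h3⟩ := h1
    have hz := (hS.dat l hq).mem
    rcases List.mem_append.1 hl with hl | hl
    · exact h3 l hl l (by simp) hz hz
    · exact (List.rel_of_pairwise_cons h2 hl) hz hz
  have e : ∀ l ∈ A0 ++ A1, al ε (mv ε (lst q) MU) (mv ε (lst q) ML) l = al ε MU ML l := by
    intro l hl
    apply al_mv_other hε hS _ hq (hn l hl)
    rcases List.mem_append.1 hl with hl | hl
    · exact List.mem_append.2 (Or.inl hl)
    · exact List.mem_append.2 (Or.inr (List.mem_cons_of_mem _ hl))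
  rw [List.map_append, List.map_cons, List.map_append, List.map_cons, List.sum_append,
    List.sum_cons, List.sum_append, List.sum_cons, al_mv_self hε]
  rw [List.map_congr_left (fun l hl => e l (List.mem_append.2 (Or.inl hl))),
    List.map_congr_left (fun l hl => e l (List.mem_append.2 (Or.inr hl)))]
  ring

end

lemma mem_dd {ε δ z p : ℝ} {MU ML : ℝ → ℝ} {l : List ℝ} (hδ : δ = ε ∨ δ = -ε)
    (h : Dat ε MU ML l z) (hp : p ∈ dd δ l) :
    p ∈ sh δ l.dropLast ∨ p ∈ sh (-δ) l.dropLast ∨ p = z - ε ∨ p = z + ε := by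
  have e : ∀ σ : ℝ, (σ = ε ∨ σ = -ε) → p ∈ sh σ l → p ∈ sh σ l.dropLast ∨ p = z - ε ∨ p = z + ε := by
    intro σ hσ hp
    rw [h.split, sh_append] at hp
    rcases List.mem_append.1 hp with hp | hp
    · left
      exact hp
    · right
      simp only [sh_cons, sh_nil, List.mem_singleton] at hp
      have : sg l.dropLast.length σ = ε ∨ sg l.dropLast.length σ = -ε := by
        unfold sg
        rcases neg_one_pow_eq_or ℝ l.dropLast.length with h1 | h1 <;> rcases hσ with rfl | rfl <;>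
          rw [h1] <;> simp
      rcases this with h1 | h1
      · right; rw [hp, h1]
      · left; rw [hp, h1]; ring
  unfold dd at hp
  rw [List.mem_append, List.mem_reverse] at hp
  rcases hp with hp | hp
  · rcases e δ hδ hp with h1 | h1 | h1
    · exact Or.inl h1
    · exact Or.inr (Or.inr (Or.inl h1))
    · exact Or.inr (Or.inr (Or.inr h1))
  · have : -δ = ε ∨ -δ = -ε := by
      rcases hδ with rfl | rfl
      · right; rfl
      · left; simp
    rcases e (-δ) this hp with h1 | h1 | h1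
    · exact Or.inr (Or.inl h1)
    · exact Or.inr (Or.inr (Or.inl h1))
    · exact Or.inr (Or.inr (Or.inr h1))

/-- `1` if the tip piece of the arm is in the lower page -/
def aft (l : List ℝ) : ℝ := if tipPage false l then 0 else 1

lemma aft_cases (l : List ℝ) : aft l = 0 ∨ aft l = 1 := by
  unfold aft
  split_ifs
  · exact Or.inl rfl
  · exact Or.inr rfl

/-- **Pair lemma.** `a` before `b`; `Ea`, `Eb` are consistent for the masses with the leaf of `a`
(of `b`) moved out of its finger. -/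
theorem pair {B ε : ℝ} (hε : 0 < ε) {MU ML : ℝ → ℝ} {A0 M A1 : List (List ℝ)} {a b : List ℝ}
    (hS : SD ε MU ML (A0 ++ a :: (M ++ b :: A1)))
    (hmU : Monotone MU) (hmL : Monotone ML) (ha : al ε MU ML a = 1) (hb : al ε MU ML b = 1)
    {Ea Eb : ℝ → ℝ}
    (hEa : Cons B (mv ε (lst a) MU) (mv ε (lst a) ML) Ea false (dA ε (A0 ++ a :: (M ++ b :: A1))))
    (hEb : Cons B (mv ε (lst b) MU) (mv ε (lst b) ML) Eb false
      (dA ε (A0 ++ a :: (M ++ b :: A1)))) :
    ∃ d : ℝ, (∀ l, l ∈ A0 ∨ l ∈ A1 → ∀ p ∈ dd (-ε) l, Ea p - Eb p = d) ∧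
      (∀ l ∈ M, ∀ p ∈ dd (-ε) l, Ea p - Eb p = d + 1) ∧
      Ea (lst a + ε) - Eb (lst a + ε) = d + aft a ∧
      Ea (lst b + ε) - Eb (lst b + ε) = d + 1 - aft b ∧
      ∀ p ∈ dA ε (A0 ++ a :: (M ++ b :: A1)), d ≤ Ea p - Eb p ∧ Ea p - Eb p ≤ d + 1 := by
  set A := A0 ++ a :: (M ++ b :: A1) with hA
  have haA : a ∈ A := by simp [hA]
  have hbA : b ∈ A := by simp [hA]
  -- the arms are different
  have hnd : ∀ {X Y : List (List ℝ)} {q : List ℝ}, A = X ++ q :: Y → ∀ l, l ∈ X ∨ l ∈ Y → l ≠ q := by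
    intro X Y q hq l hl h
    subst h
    have h1 := (List.nodup_flatten.1 hS.nodup).2
    rw [hq, List.pairwise_append] at h1
    obtain ⟨-, h2, h3⟩ := h1
    have hz := (hS.dat l (by rw [hq]; simp)).mem
    rcases hl with hl | hl
    · exact h3 l hl l (by simp) hz hz
    · exact (List.rel_of_pairwise_cons h2 hl) hz hz
  have hab : a ≠ b := by
    intro h
    exact hnd (X := A0) (Y := M ++ b :: A1) hA b (Or.inr (by simp)) h.symm
  have eA' : A = (A0 ++ a :: M) ++ b :: A1 := by rw [hA]; simp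
  have hD := hEa.sub hEb
  rw [sub_self] at hD
  set u : ℝ → ℝ := fun x => mv ε (lst a) MU x - mv ε (lst b) MU x with hu
  set v : ℝ → ℝ := fun x => mv ε (lst a) ML x - mv ε (lst b) ML x with hv
  set D : ℝ → ℝ := fun x => Ea x - Eb x with hDd
  -- values of `u`, `v`
  have zero : ∀ {l : List ℝ}, l ∈ A → ∀ {p : ℝ}, p ∈ l.dropLast → ∀ σ : ℝ, |σ| ≤ ε →
      u (p + σ) = 0 ∧ v (p + σ) = 0 := by
    intro l hl p hp σ hσ
    simp only [hu, hv]
    rw [mv_other (hS.far hl haA hp) hσ, mv_other (hS.far hl hbA hp) hσ,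
      mv_other (hS.far hl haA hp) hσ, mv_other (hS.far hl hbA hp) hσ]
    simp
  have zero' : ∀ {l : List ℝ}, l ∈ A → l ≠ a → l ≠ b → ∀ σ : ℝ, |σ| ≤ ε →
      u (lst l + σ) = 0 ∧ v (lst l + σ) = 0 := by
    intro l hl h1 h2 σ hσ
    simp only [hu, hv]
    rw [mv_other (hS.far' hl haA h1) hσ, mv_other (hS.far' hl hbA h2) hσ,
      mv_other (hS.far' hl haA h1) hσ, mv_other (hS.far' hl hbA h2) hσ]
    simp
  have far_ab := hS.far' haA hbA hab
  have far_ba := hS.far' hbA haA hab.symm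
  have hap : u (lst a + ε) = 0 ∧ v (lst a + ε) = 0 := by
    simp only [hu, hv]
    rw [mv_right, mv_right, mv_other far_ab (abs_eps hε), mv_other far_ab (abs_eps hε)]
    simp
  have hbp : u (lst b + ε) = 0 ∧ v (lst b + ε) = 0 := by
    simp only [hu, hv]
    rw [mv_right, mv_right, mv_other far_ba (abs_eps hε), mv_other far_ba (abs_eps hε)]
    simp
  have ham : u (lst a - ε) = MU (lst a + ε) - MU (lst a - ε) ∧
      v (lst a - ε) = ML (lst a + ε) - ML (lst a - ε) := by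
    simp only [hu, hv]
    rw [mv_near hε, mv_near hε, sub_eq_add_neg (lst a) ε, mv_other far_ab (abs_neg_eps hε),
      mv_other far_ab (abs_neg_eps hε)]
    exact ⟨rfl, rfl⟩
  have hbm : u (lst b - ε) = MU (lst b - ε) - MU (lst b + ε) ∧
      v (lst b - ε) = ML (lst b - ε) - ML (lst b + ε) := by
    simp only [hu, hv]
    rw [mv_near hε, mv_near hε, sub_eq_add_neg (lst b) ε, mv_other far_ba (abs_neg_eps hε),
      mv_other far_ba (abs_neg_eps hε)]
    exact ⟨rfl, rfl⟩
  have hlast : ∀ {l : List ℝ}, l ∈ A → u (lst l + ε) = 0 ∧ v (lst l + ε) = 0 := by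
    intro l hl
    by_cases h1 : l = a
    · rw [h1]; exact hap
    · by_cases h2 : l = b
      · rw [h2]; exact hbp
      · exact zero' hl h1 h2 ε (abs_eps hε)
  have hSD : SD ε u v A := by
    refine ⟨?_, hS.nodup, hS.sep⟩
    intro l hl
    have hDl := hS.dat l hl
    refine ⟨hDl.last, hDl.nodup, hDl.sep, ?_, ?_⟩
    · intro p hp
      rw [sub_eq_add_neg, (zero hl hp (-ε) (abs_neg_eps hε)).1, (zero hl hp ε (abs_eps hε)).1]
    · intro p hp
      rw [sub_eq_add_neg, (zero hl hp (-ε) (abs_neg_eps hε)).2, (zero hl hp ε (abs_eps hε)).2]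
  have hVan : ∀ {l : List ℝ}, l ∈ A → Van ε u v l (lst l) := by
    intro l hl
    refine ⟨?_, ?_, ?_, ?_, (hlast hl).1, (hlast hl).2⟩
    · intro p hp
      rw [sub_eq_add_neg]; exact (zero hl hp (-ε) (abs_neg_eps hε)).1
    · intro p hp; exact (zero hl hp ε (abs_eps hε)).1
    · intro p hp
      rw [sub_eq_add_neg]; exact (zero hl hp (-ε) (abs_neg_eps hε)).2
    · intro p hp; exact (zero hl hp ε (abs_eps hε)).2
  -- the masses
  have al_o : ∀ {l : List ℝ}, l ∈ A → l ≠ a → l ≠ b → al ε u v l = 0 := by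
    intro l hl h1 h2
    unfold al
    rw [sub_eq_add_neg (lst l) ε, (zero' hl h1 h2 _ (abs_neg_eps hε)).1,
      (zero' hl h1 h2 _ (abs_neg_eps hε)).2, (hlast hl).1, (hlast hl).2]
    ring
  have al_a : al ε u v a = -1 := by
    unfold al at ha ⊢
    rw [hap.1, hap.2, ham.1, ham.2]
    linarith
  have al_b : al ε u v b = 1 := by
    unfold al at hb ⊢
    rw [hbp.1, hbp.2, hbm.1, hbm.2]
    linarith
  have hwa : u (lst a - ε) + v (lst a - ε) = 1 := by
    rw [ham.1, ham.2]; unfold al at ha; linarith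
  have hwb : u (lst b - ε) + v (lst b - ε) = -1 := by
    rw [hbm.1, hbm.2]; unfold al at hb; linarith
  -- the head of the list
  obtain ⟨l0, A', hl0⟩ : ∃ l0 A', A = l0 :: A' := by
    cases hcase : A with
    | nil => rw [hcase] at haA; simp at haA
    | cons x y => exact ⟨x, y, rfl⟩
  set d := Ph u v D true (l0.headI - ε) with hd
  have sum0 : ∀ X : List (List ℝ), (∀ l ∈ X, l ∈ A ∧ l ≠ a ∧ l ≠ b) →
      (X.map (al ε u v)).sum = 0 := by
    intro X hX
    apply List.sum_eq_zero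
    intro x hx
    obtain ⟨l, hl, rfl⟩ := List.mem_map.1 hx
    obtain ⟨h1, h2, h3⟩ := hX l hl
    exact al_o h1 h2 h3
  -- arms before `a`
  have hX0 : ∀ l ∈ A0, l ∈ A ∧ l ≠ a ∧ l ≠ b := by
    intro l hl
    refine ⟨by rw [hA]; simp [hl], hnd hA l (Or.inl hl), hnd eA' l (Or.inl (by simp [hl]))⟩
  have hXM : ∀ l ∈ M, l ∈ A ∧ l ≠ a ∧ l ≠ b := by
    intro l hl
    refine ⟨by rw [hA]; simp [hl], hnd hA l (Or.inr (by simp [hl])),
      hnd eA' l (Or.inl (by simp [hl]))⟩
  have hX1 : ∀ l ∈ A1, l ∈ A ∧ l ≠ a ∧ l ≠ b := by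
    intro l hl
    refine ⟨by rw [hA]; simp [hl], hnd hA l (Or.inr (by simp [hl])), hnd eA' l (Or.inr hl)⟩
  have hDc : Cons 0 u v D false (dA ε (l0 :: A')) := by rw [← hl0]; exact hD
  have hSD' : SD ε u v (l0 :: A') := by rw [← hl0]; exact hSD
  have ent : ∀ (X Y : List (List ℝ)) (q : List ℝ), A = X ++ q :: Y →
      Ph u v D true (q.headI - ε) = d - (X.map (al ε u v)).sum ∧ Cons 0 u v D false (dd (-ε) q) := by
    intro X Y q h
    exact entry hε X l0 q Y A' (by rw [← hl0]; exact h) hSD' hDc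
  -- values at an arm with entry value `e`
  have vals : ∀ {q : List ℝ} {e : ℝ}, q ∈ A → Ph u v D true (q.headI - ε) = e →
      Cons 0 u v D false (dd (-ε) q) →
      (∀ p ∈ sh (-ε) q.dropLast, D p = e) ∧
      (∀ p ∈ sh ε q.dropLast, D p = e + (u (lst q - ε) + v (lst q - ε))) ∧
      D (lst q - ε) = e + u (lst q - ε) ∧
      D (lst q + ε) = e + (if tipPage false q then 0 else (u (lst q - ε) + v (lst q - ε))) := by
    intro q e hq he hc
    have h := fin_vals hε q (pg := false) (δ := -ε) (Or.inl ⟨rfl, rfl⟩) (hSD.dat q hq) (hVan hq) hc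
    rw [Bool.not_false, ← sub_eq_add_neg, he, neg_neg] at h
    exact h
  have plain : ∀ {q : List ℝ} {e : ℝ}, q ∈ A → q ≠ a → q ≠ b →
      Ph u v D true (q.headI - ε) = e → Cons 0 u v D false (dd (-ε) q) →
      ∀ p ∈ dd (-ε) q, D p = e := by
    intro q e hq h1 h2 he hc p hp
    obtain ⟨k1, k2, k3, k4⟩ := vals hq he hc
    have hm := zero' hq h1 h2 (-ε) (abs_neg_eps hε)
    rw [← sub_eq_add_neg] at hm
    simp only [hm.1, hm.2, add_zero, ite_self] at k2 k3 k4
    rcases mem_dd (Or.inr rfl) (hSD.dat q hq) hp with h | h | h | h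
    · exact k1 p h
    · rw [neg_neg] at h
      exact k2 p h
    · rw [h, k3]
    · rw [h, k4]
  -- `A0`
  have r0 : ∀ l ∈ A0, ∀ p ∈ dd (-ε) l, D p = d := by
    intro l hl
    obtain ⟨X, Y, hXY⟩ := List.append_of_mem hl
    obtain ⟨h1, h2, h3⟩ := hX0 l hl
    obtain ⟨e1, e2⟩ := ent X (Y ++ a :: (M ++ b :: A1)) l (by rw [hA, hXY]; simp)
    rw [sum0 X (fun q hq => hX0 q (by rw [hXY]; simp [hq])), sub_zero] at e1
    exact plain h1 h2 h3 e1 e2
  have ra := ent A0 (M ++ b :: A1) a hA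
  rw [sum0 A0 hX0, sub_zero] at ra
  have va := vals haA ra.1 ra.2
  rw [hwa] at va
  have rM : ∀ l ∈ M, ∀ p ∈ dd (-ε) l, D p = d + 1 := by
    intro l hl
    obtain ⟨X, Y, hXY⟩ := List.append_of_mem hl
    obtain ⟨h1, h2, h3⟩ := hXM l hl
    obtain ⟨e1, e2⟩ := ent (A0 ++ a :: X) (Y ++ b :: A1) l (by rw [hA, hXY]; simp)
    rw [List.map_append, List.map_cons, List.sum_append, List.sum_cons, sum0 A0 hX0,
      sum0 X (fun q hq => hXM q (by rw [hXY]; simp [hq])), al_a] at e1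
    exact plain h1 h2 h3 (by rw [e1]; ring) e2
  have rb := ent (A0 ++ a :: M) A1 b eA'
  rw [List.map_append, List.map_cons, List.sum_append, List.sum_cons, sum0 A0 hX0,
    sum0 M hXM, al_a] at rb
  have vb := vals (e := d + 1) hbA (by rw [rb.1]; ring) rb.2
  rw [hwb] at vb
  have r1 : ∀ l ∈ A1, ∀ p ∈ dd (-ε) l, D p = d := by
    intro l hl
    obtain ⟨X, Y, hXY⟩ := List.append_of_mem hl
    obtain ⟨h1, h2, h3⟩ := hX1 l hl
    obtain ⟨e1, e2⟩ := ent (A0 ++ a :: (M ++ b :: X)) Y l (by rw [hA, hXY]; simp)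
    rw [List.map_append, List.map_cons, List.map_append, List.map_cons, List.sum_append,
      List.sum_cons, List.sum_append, List.sum_cons, sum0 A0 hX0, sum0 M hXM,
      sum0 X (fun q hq => hX1 q (by rw [hXY]; simp [hq])), al_a, al_b] at e1
    exact plain h1 h2 h3 (by rw [e1]; ring) e2
  have ua0 : 0 ≤ u (lst a - ε) := by rw [ham.1]; linarith [hmU (show lst a - ε ≤ lst a + ε by linarith)]
  have va0 : 0 ≤ v (lst a - ε) := by rw [ham.2]; linarith [hmL (show lst a - ε ≤ lst a + ε by linarith)]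
  have ub0 : u (lst b - ε) ≤ 0 := by rw [hbm.1]; linarith [hmU (show lst b - ε ≤ lst b + ε by linarith)]
  have vb0 : v (lst b - ε) ≤ 0 := by rw [hbm.2]; linarith [hmL (show lst b - ε ≤ lst b + ε by linarith)]
  refine ⟨d, ?_, rM, ?_, ?_, ?_⟩
  · rintro l (hl | hl)
    · exact r0 l hl
    · exact r1 l hl
  · have := va.2.2.2
    exact this
  · have := vb.2.2.2
    show D (lst b + ε) = d + 1 - aft b
    rw [this]
    unfold aft
    split_ifs <;> ring
  · intro p hp
    show d ≤ D p ∧ D p ≤ d + 1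
    unfold dA at hp
    rw [List.mem_flatMap] at hp
    obtain ⟨l, hl, hp⟩ := hp
    rw [hA, List.mem_append, List.mem_cons, List.mem_append, List.mem_cons] at hl
    rcases hl with hl | rfl | hl | rfl | hl
    · rw [r0 l hl p hp]; constructor <;> linarith
    · rcases mem_dd (Or.inr rfl) (hSD.dat l haA) hp with h | h | h | h
      · rw [va.1 p h]; constructor <;> linarith
      · rw [neg_neg] at h
        rw [va.2.1 p h]; constructor <;> linarith
      · rw [h, va.2.2.1]; constructor <;> linarith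
      · rw [h, va.2.2.2]; split_ifs <;> constructor <;> linarith
    · rw [rM l hl p hp]; constructor <;> linarith
    · rcases mem_dd (Or.inr rfl) (hSD.dat l hbA) hp with h | h | h | h
      · rw [vb.1 p h]; constructor <;> linarith
      · rw [neg_neg] at h
        rw [vb.2.1 p h]; constructor <;> linarith
      · rw [h, vb.2.2.1]; constructor <;> linarith
      · rw [h, vb.2.2.2]; split_ifs <;> constructor <;> linarith
    · rw [r1 l hl p hp]; constructor <;> linarith

/-- **The triangle rule.** Three arms `a`, `b`, `c` in this order; `E` are consistent with the leaf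
of one arm moved out of its finger; `K` are the values of a monotone and equivariant functional. -/
theorem tri {B ε : ℝ} (hε : 0 < ε) {MU ML : ℝ → ℝ} {A0 M M' A1 : List (List ℝ)}
    {a b c : List ℝ} (hS : SD ε MU ML (A0 ++ a :: (M ++ b :: (M' ++ c :: A1))))
    (hmU : Monotone MU) (hmL : Monotone ML) (ha : al ε MU ML a = 1) (hb : al ε MU ML b = 1)
    (hc : al ε MU ML c = 1) {Ea Eb Ec : ℝ → ℝ}
    (hEa : Cons B (mv ε (lst a) MU) (mv ε (lst a) ML) Ea false
      (dA ε (A0 ++ a :: (M ++ b :: (M' ++ c :: A1)))))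
    (hEb : Cons B (mv ε (lst b) MU) (mv ε (lst b) ML) Eb false
      (dA ε (A0 ++ a :: (M ++ b :: (M' ++ c :: A1)))))
    (hEc : Cons B (mv ε (lst c) MU) (mv ε (lst c) ML) Ec false
      (dA ε (A0 ++ a :: (M ++ b :: (M' ++ c :: A1)))))
    {Ka Kb Kc : ℝ}
    (kba : ∀ s, (∀ p ∈ dA ε (A0 ++ a :: (M ++ b :: (M' ++ c :: A1))), Eb p + s ≤ Ea p) → Kb + s ≤ Ka)
    (kcb : ∀ s, (∀ p ∈ dA ε (A0 ++ a :: (M ++ b :: (M' ++ c :: A1))), Ec p + s ≤ Eb p) → Kc + s ≤ Kb)
    (kac : ∀ s, (∀ p ∈ dA ε (A0 ++ a :: (M ++ b :: (M' ++ c :: A1))), Ea p + s ≤ Ec p) → Ka + s ≤ Kc) :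
    0 ≤ (Ka - Ea (lst c + ε)) - (Kb - Eb (lst c + ε)) ∧
    0 ≤ (Kb - Eb (lst a + ε)) - (Kc - Ec (lst a + ε)) ∧
    0 ≤ (Kc - Ec (lst b + ε)) - (Ka - Ea (lst b + ε)) ∧
    ((Ka - Ea (lst c + ε)) - (Kb - Eb (lst c + ε))) +
      ((Kb - Eb (lst a + ε)) - (Kc - Ec (lst a + ε))) +
      ((Kc - Ec (lst b + ε)) - (Ka - Ea (lst b + ε))) = 1 := by
  set A := A0 ++ a :: (M ++ b :: (M' ++ c :: A1)) with hA
  have e1 : A = A0 ++ a :: (M ++ b :: (M' ++ c :: A1)) := hA
  have e2 : A = (A0 ++ a :: M) ++ b :: (M' ++ c :: A1) := by rw [hA]; simp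
  have e3 : A = A0 ++ a :: ((M ++ b :: M') ++ c :: A1) := by rw [hA]; simp
  obtain ⟨d12, p1, -, p3, p4, p5⟩ := pair (B := B) hε (A0 := A0) (M := M) (A1 := M' ++ c :: A1)
    (a := a) (b := b) (by rw [← e1]; exact hS) hmU hmL ha hb (by rw [← e1]; exact hEa)
    (by rw [← e1]; exact hEb)
  obtain ⟨d23, q1, -, q3, q4, q5⟩ := pair (B := B) hε (A0 := A0 ++ a :: M) (M := M') (A1 := A1)
    (a := b) (b := c) (by rw [← e2]; exact hS) hmU hmL hb hc (by rw [← e2]; exact hEb)
    (by rw [← e2]; exact hEc)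
  obtain ⟨d13, r1, r2, r3, r4, r5⟩ := pair (B := B) hε (A0 := A0) (M := M ++ b :: M') (A1 := A1)
    (a := a) (b := c) (by rw [← e3]; exact hS) hmU hmL ha hc (by rw [← e3]; exact hEa)
    (by rw [← e3]; exact hEc)
  rw [← e1] at p5
  rw [← e2] at q5
  rw [← e3] at r5
  have mem_tip : ∀ l ∈ A, lst l + ε ∈ dd (-ε) l := by
    intro l hl
    have hD := hS.dat l hl
    have h1 : ∀ σ : ℝ, σ = ε ∨ σ = -ε → (lst l + ε ∈ sh σ l ∨ lst l + ε ∈ sh (-σ) l) := by
      intro σ hσ
      have h2 : sg l.dropLast.length σ = ε ∨ sg l.dropLast.length (-σ) = ε := by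
        unfold sg
        rcases neg_one_pow_eq_or ℝ l.dropLast.length with h1 | h1 <;> rcases hσ with rfl | rfl <;>
          rw [h1] <;> simp
      rcases h2 with h2 | h2
      · left
        rw [hD.split, sh_append, h2]
        rw [← hD.split]
        simp
      · right
        rw [hD.split, sh_append, h2]
        rw [← hD.split]
        simp
    unfold dd
    rw [List.mem_append, List.mem_reverse]
    exact h1 (-ε) (Or.inr rfl)
  have haA : a ∈ A := by simp [hA]
  have hbA : b ∈ A := by simp [hA]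
  have hcA : c ∈ A := by simp [hA]
  have s1 : Ea (lst c + ε) - Eb (lst c + ε) = d12 :=
    p1 c (Or.inr (by simp)) _ (mem_tip c hcA)
  have s2 : Eb (lst a + ε) - Ec (lst a + ε) = d23 :=
    q1 a (Or.inl (by simp)) _ (mem_tip a haA)
  have s3 : Ea (lst b + ε) - Ec (lst b + ε) = d13 + 1 :=
    r2 b (by simp) _ (mem_tip b hbA)
  have hd : d13 = d12 + d23 := by linarith
  have k1 := kba d12 (fun p hp => by linarith [(p5 p hp).1])
  have k2 := kcb d23 (fun p hp => by linarith [(q5 p hp).1])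
  have k3 := kac (-(d13 + 1)) (fun p hp => by linarith [(r5 p hp).2])
  refine ⟨by linarith, by linarith, by linarith, by linarith⟩

end Vale.Agent.P040.H908
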